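/-
Row 239 (S0475, Uchida's conjecture).  COMMON VOCABULARY.  Owner: helper28.
Everything here is a definition or a very small lemma; no sorry.

Setting: `F` a number field, `E / F` a (usually infinite) Galois extension, `G = Gal(E/F)` with the
Krull topology.  Number fields between `F` and `E` are encoded by OPEN SUBGROUPS `U ≤ G`
(`M_U = IntermediateField.fixedField U`).  Primes of `E` are maximal ideals `P` of `𝓞 E`
(`𝓞 E` = integral closure of `ℤ` in `E`, which makes sense for infinite `E`).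
-/
import Mathlib
import Claimed.Prelude.Def_0403

set_option autoImplicit false

namespace Claimed.Agent.R239

open NumberField
open scoped Pointwise

/-! ## 1. Additive `ℓ`-adic characters of a topological group -/

section XChar

variable (ℓ : ℕ) [Fact ℓ.Prime]

/-- `XChar ℓ H = Hom_cont(H, ℚ_ℓ)`, as a `ℚ_ℓ`-subspace of the space of all functions.
For an open subgroup `U ≤ Gal(E/F)` the paper's `X_ℓ(M_U)` is `XChar ℓ ↥U`. -/
def XChar (H : Type*) [Group H] [TopologicalSpace H] : Submodule ℚ_[ℓ] (H → ℚ_[ℓ]) where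
  carrier := {x | Continuous x ∧ ∀ g h, x (g * h) = x g + x h}
  add_mem' := by
    rintro x y ⟨hx, hx'⟩ ⟨hy, hy'⟩
    refine ⟨hx.add hy, fun g h => ?_⟩
    simp only [Pi.add_apply, hx', hy']; ring
  zero_mem' := ⟨continuous_const, fun _ _ => by simp⟩
  smul_mem' := by
    rintro c x ⟨hx, hx'⟩
    refine ⟨hx.const_smul c, fun g h => ?_⟩
    simp only [Pi.smul_apply, hx', smul_add]

variable {ℓ}
variable {H H' H'' : Type*} [Group H] [TopologicalSpace H] [Group H'] [TopologicalSpace H']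
  [Group H''] [TopologicalSpace H'']

theorem mem_XChar {x : H → ℚ_[ℓ]} :
    x ∈ XChar ℓ H ↔ Continuous x ∧ ∀ g h, x (g * h) = x g + x h := Iff.rfl

namespace XChar

theorem continuous (x : XChar ℓ H) : Continuous (x : H → ℚ_[ℓ]) := x.2.1

theorem map_mul (x : XChar ℓ H) (g h : H) : (x : H → ℚ_[ℓ]) (g * h) = x.1 g + x.1 h := x.2.2 g h

theorem map_one (x : XChar ℓ H) : (x : H → ℚ_[ℓ]) 1 = 0 := by
  have := map_mul x 1 1
  simpa using this

theorem map_inv (x : XChar ℓ H) (g : H) : (x : H → ℚ_[ℓ]) g⁻¹ = - x.1 g := by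
  have := map_mul x g g⁻¹
  rw [mul_inv_cancel, map_one x] at this
  linear_combination -this

theorem map_pow (x : XChar ℓ H) (g : H) (n : ℕ) : (x : H → ℚ_[ℓ]) (g ^ n) = n * x.1 g := by
  induction n with
  | zero => simp [map_one x]
  | succ n ih => rw [pow_succ, map_mul x, ih]; push_cast; ring

theorem map_conj (x : XChar ℓ H) (g h : H) : (x : H → ℚ_[ℓ]) (g * h * g⁻¹) = x.1 h := by
  rw [map_mul x, map_mul x, map_inv x]; ring

/-- Pull-back of additive characters along a continuous homomorphism. -/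
def comap (φ : H →* H') (hφ : Continuous φ) : XChar ℓ H' →ₗ[ℚ_[ℓ]] XChar ℓ H where
  toFun x := ⟨fun h => x.1 (φ h), (continuous x).comp hφ, fun g h => by
    simp only [_root_.map_mul, map_mul x]⟩
  map_add' _ _ := rfl
  map_smul' _ _ := rfl

@[simp] theorem comap_apply (φ : H →* H') (hφ : Continuous φ) (x : XChar ℓ H') (h : H) :
    (comap φ hφ x).1 h = x.1 (φ h) := rfl

end XChar

section Subgroups

variable {G : Type*} [Group G] [TopologicalSpace G]

/-- Restriction `X(U) → X(V)` for `V ≤ U`. -/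
def XChar.res {V U : Subgroup G} (h : V ≤ U) : XChar ℓ U →ₗ[ℚ_[ℓ]] XChar ℓ V :=
  XChar.comap (Subgroup.inclusion h) (continuous_inclusion h)

@[simp] theorem XChar.res_apply {V U : Subgroup G} (h : V ≤ U) (x : XChar ℓ U) (g : V) :
    (XChar.res h x).1 g = x.1 ⟨g.1, h g.2⟩ := rfl

variable [IsTopologicalGroup G]

/-- The action of `G` on `X(V)`, `V` normal in `G`: `(g • x)(h) = x (g⁻¹ h g)`. -/
def XChar.conj (V : Subgroup G) [V.Normal] (g : G) : XChar ℓ V →ₗ[ℚ_[ℓ]] XChar ℓ V :=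
  XChar.comap (MulAut.conjNormal g⁻¹ : V ≃* V).toMonoidHom (by
    refine Continuous.subtype_mk ?_ _
    exact (continuous_const.mul continuous_subtype_val).mul continuous_const)

@[simp] theorem XChar.conj_apply (V : Subgroup G) [V.Normal] (g : G) (x : XChar ℓ V) (h : V) :
    (XChar.conj V g x).1 h
      = x.1 ⟨g⁻¹ * h.1 * g, by simpa using ‹V.Normal›.conj_mem h.1 h.2 g⁻¹⟩ := by
  have : (MulAut.conjNormal g⁻¹ : V ≃* V).toMonoidHom h
      = ⟨g⁻¹ * h.1 * g, by simpa using ‹V.Normal›.conj_mem h.1 h.2 g⁻¹⟩ := by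
    ext
    simp
  rw [← this]
  rfl

end Subgroups

end XChar

/-! ## 2. Primes of `E`, decomposition and inertia groups, Frobenius lifts -/

section Primes

variable {F E : Type*} [Field F] [Field E] [Algebra F E]

/-- The number field `M_U` cut out by the subgroup `U`. -/
abbrev fld (U : Subgroup Gal(E/F)) : IntermediateField F E := IntermediateField.fixedField U

/-- Decomposition group of the prime `P` of `E` in `Gal(E/F)`. -/
abbrev decomp (F : Type*) {E : Type*} [Field F] [Field E] [Algebra F E] (P : Ideal (𝓞 E)) :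
    Subgroup Gal(E/F) := MulAction.stabilizer Gal(E/F) P

/-- Inertia group of the prime `P` of `E` in `Gal(E/F)`. -/
abbrev inert (F : Type*) {E : Type*} [Field F] [Field E] [Algebra F E] (P : Ideal (𝓞 E)) :
    Subgroup Gal(E/F) := P.inertia Gal(E/F)

/-- The prime of `M_U` below `P`. -/
abbrev below (U : Subgroup Gal(E/F)) (P : Ideal (𝓞 E)) : Ideal (𝓞 (fld U)) :=
  P.under (𝓞 (fld U))

/-- Absolute norm `N v` of the prime `v = P ∩ M_U` of `M_U`. -/
noncomputable def normAt (U : Subgroup Gal(E/F)) (P : Ideal (𝓞 E)) : ℕ :=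
  Nat.card (𝓞 (fld U) ⧸ below U P)

/-- `σ` is (a lift of) the arithmetic Frobenius of `M_U` at the prime `P` of `E`:
`σ ∈ U` and `σ y ≡ y ^ (N v)  (mod P)` for all integers `y` of `E`. -/
def IsFrob (U : Subgroup Gal(E/F)) (P : Ideal (𝓞 E)) (σ : Gal(E/F)) : Prop :=
  σ ∈ U ∧ ∀ y : 𝓞 E, σ • y - y ^ normAt U P ∈ P

/-- `P` lies over the rational prime `p`. -/
def Over (P : Ideal (𝓞 E)) (p : ℕ) : Prop := (p : 𝓞 E) ∈ P

/-- `v = P ∩ M_U` has absolute residue degree one. -/
def DegOne (U : Subgroup Gal(E/F)) (P : Ideal (𝓞 E)) : Prop := (normAt U P).Prime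

/-- `P` is unramified in `M_V / M_U` (for `V ≤ U`): the inertia group of `P` in `U` lies in `V`. -/
def UnramIn (U V : Subgroup Gal(E/F)) (P : Ideal (𝓞 E)) : Prop := inert F P ⊓ U ≤ V

end Primes

/-! ## 3. Cyclotomic characters and the `ℓ`-adic logarithm -/

section Cyclo

variable (ℓ : ℕ) [Fact ℓ.Prime]

/-- The `ℓ`-adic cyclotomic character of `Gal(E/F)` (meaningful when `E ⊇ μ_{ℓ^∞}`). -/
noncomputable def chi (F E : Type*) [Field F] [Field E] [Algebra F E] : Gal(E/F) →* ℤ_[ℓ]ˣ :=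
  (cyclotomicCharacter E ℓ).comp (MulSemiringAction.toRingAut Gal(E/F) E)

/-- The power series `log (1 + t) = ∑ (-1)^n t^(n+1) / (n+1)` on `ℚ_ℓ`. -/
noncomputable def logSeries (t : ℚ_[ℓ]) : ℚ_[ℓ] :=
  ∑' n : ℕ, (-1 : ℚ_[ℓ]) ^ n * t ^ (n + 1) / (n + 1)

/-- The `ℓ`-adic logarithm on `ℤ_ℓˣ`, normalised to vanish on roots of unity:
`Lg u = log (u ^ (ℓ - 1)) / (ℓ - 1)`. -/
noncomputable def Lg (u : ℤ_[ℓ]ˣ) : ℚ_[ℓ] :=
  ((ℓ : ℚ_[ℓ]) - 1)⁻¹ * logSeries ℓ ((((u ^ (ℓ - 1) : ℤ_[ℓ]ˣ) : ℤ_[ℓ]) : ℚ_[ℓ]) - 1)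

/-- `log χ_ℓ` as a function on `Gal(E/F)`. -/
noncomputable def logChi (F E : Type*) [Field F] [Field E] [Algebra F E] (g : Gal(E/F)) : ℚ_[ℓ] :=
  Lg ℓ (chi ℓ F E g)

end Cyclo

/-! ## 4. Pro-`ℓ` elements and tame generators -/

section Tame

variable {G : Type*} [Group G] [TopologicalSpace G]

/-- `τ` topologically generates a pro-`ℓ` group: its order in every finite (discrete) quotient is
a power of `ℓ`. -/
def IsProL (ℓ : ℕ) (τ : G) : Prop :=
  ∀ V : Subgroup G, IsOpen (V : Set G) → ∃ k : ℕ, τ ^ ℓ ^ k ∈ V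

variable {F E : Type*} [Field F] [Field E] [Algebra F E]

/-- `τ` is a topological generator of a pro-`ℓ` Sylow subgroup of the inertia group
`I_U(P) = I(P) ∩ U` (for `P ∤ ℓ`): it is a pro-`ℓ` element of `I_U(P)` which is not killed by any
non-trivial continuous character `I_U(P) → ℤ/ℓ`. -/
structure IsTameGen (ℓ : ℕ) (U : Subgroup Gal(E/F)) (P : Ideal (𝓞 E)) (τ : Gal(E/F)) : Prop where
  mem : τ ∈ inert F P ⊓ U
  proL : IsProL ℓ τ
  gen : ∀ c : ↥(inert F P ⊓ U) →* Multiplicative (ZMod ℓ), Continuous c → c ⟨τ, mem⟩ = 1 → c = 1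

end Tame

end Claimed.Agent.R239
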