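/-
Row 239, package LOG (Lemma 3.1 of the paper, logarithm rank), owner helper139.
Basic definitions of the package and the l-adic exponential on a complete ultrametric field.
-/
import Mathlib

namespace Claimed.Agent.R239.Log

open scoped Nat

/-- radius of convergence of the `ℓ`-adic exponential. -/
noncomputable def expRad (ℓ : ℕ) : ℝ := (ℓ : ℝ) ^ (-(1 : ℝ) / ((ℓ : ℝ) - 1))

/-- strong multiplicative independence of a finite array. -/
def MulIndep {K : Type*} [Field K] {m n : ℕ} (u : Fin m → Fin n → K) : Prop :=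
  (∀ i j, u i j ≠ 0) ∧ ∀ e : Fin m → Fin n → ℤ, (∏ i, ∏ j, u i j ^ e i j) = 1 → e = 0

/-- the point `u ^ a` of the torus. -/
def torusPt {K : Type*} [CommMonoid K] {m n : ℕ} (u : Fin m → Fin n → K) (a : Fin m → ℕ) :
    Fin n → K := fun j => ∏ i, u i j ^ a i

section
variable (ℓ : ℕ) [hℓ : Fact ℓ.Prime]

theorem expRad_pos : 0 < expRad ℓ := by
  unfold expRad
  exact Real.rpow_pos_of_pos (by exact_mod_cast hℓ.out.pos) _

theorem expRad_lt_one : expRad ℓ < 1 := by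
  unfold expRad
  have h2 : (2 : ℝ) ≤ ℓ := by exact_mod_cast hℓ.out.two_le
  apply Real.rpow_lt_one_of_one_lt_of_neg (by linarith)
  apply div_neg_of_neg_of_pos (by norm_num) (by linarith)

/-- `expRad ^ (ℓ - 1) = 1 / ℓ`. -/
theorem expRad_pow : expRad ℓ ^ (ℓ - 1) = (ℓ : ℝ)⁻¹ := by
  unfold expRad
  have h2 : (2 : ℝ) ≤ ℓ := by exact_mod_cast hℓ.out.two_le
  have h1 : 1 ≤ ℓ := hℓ.out.one_le
  rw [← Real.rpow_natCast, ← Real.rpow_mul (by linarith), Nat.cast_sub h1, Nat.cast_one,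
    div_mul_cancel₀ _ (by linarith), Real.rpow_neg_one]

end

section
variable {ℓ : ℕ} [hℓ : Fact ℓ.Prime] {K : Type*} [NormedField K] [NormedAlgebra ℚ_[ℓ] K]

theorem norm_natCast_eq (k : ℕ) : ‖(k : K)‖ = ‖(k : ℚ_[ℓ])‖ := by
  rw [← norm_algebraMap' K (k : ℚ_[ℓ]), map_natCast]

theorem norm_factorial_eq (k : ℕ) : ‖((k ! : ℕ) : K)‖ = ((ℓ : ℝ) ^ padicValNat ℓ k !)⁻¹ := by
  rw [norm_natCast_eq (ℓ := ℓ), Padic.norm_eq_zpow_neg_valuation (by exact_mod_cast k.factorial_ne_zero),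
    Padic.valuation_natCast, zpow_neg, zpow_natCast]

/-- `1 / |k!| ≤ expRad ^ (-k)`. -/
theorem inv_norm_factorial_le (k : ℕ) : ‖((k ! : ℕ) : K)‖⁻¹ ≤ (expRad ℓ ^ k)⁻¹ := by
  rw [norm_factorial_eq (ℓ := ℓ), inv_inv]
  have hpos := expRad_pos ℓ
  have hlt := expRad_lt_one ℓ
  have hL : (ℓ : ℝ) = (expRad ℓ ^ (ℓ - 1))⁻¹ := by rw [expRad_pow, inv_inv]
  rw [hL, inv_pow, ← pow_mul]
  have hle : (ℓ - 1) * padicValNat ℓ k ! ≤ k := by
    rw [sub_one_mul_padicValNat_factorial]; exact Nat.sub_le _ _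
  apply inv_anti₀ (pow_pos hpos _)
  exact pow_le_pow_of_le_one hpos.le hlt.le hle

theorem norm_pow_div_factorial_le (z : K) (k : ℕ) :
    ‖z ^ k / ((k ! : ℕ) : K)‖ ≤ (‖z‖ / expRad ℓ) ^ k := by
  rw [norm_div, norm_pow, div_pow, div_eq_mul_inv, div_eq_mul_inv]
  exact mul_le_mul_of_nonneg_left (inv_norm_factorial_le k) (by positivity)

theorem expRad_le_radius :
    ENNReal.ofReal (expRad ℓ) ≤ (NormedSpace.expSeries ℚ_[ℓ] K).radius := by
  have hpos := expRad_pos ℓ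
  rw [ENNReal.ofReal, ]
  apply FormalMultilinearSeries.le_radius_of_bound _ 1
  intro k
  rw [Real.coe_toNNReal _ hpos.le, NormedSpace.expSeries, norm_smul,
    ContinuousMultilinearMap.norm_mkPiAlgebraFin, mul_one, norm_inv]
  have h := inv_norm_factorial_le (ℓ := ℓ) (K := ℚ_[ℓ]) k
  calc ‖((k ! : ℕ) : ℚ_[ℓ])‖⁻¹ * expRad ℓ ^ k ≤ (expRad ℓ ^ k)⁻¹ * expRad ℓ ^ k := by gcongr
    _ = 1 := inv_mul_cancel₀ (pow_pos hpos _).ne'

theorem mem_eball_radius {z : K} (hz : ‖z‖ < expRad ℓ) :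
    z ∈ Metric.eball (0 : K) (NormedSpace.expSeries ℚ_[ℓ] K).radius := by
  refine Metric.eball_subset_eball (expRad_le_radius (ℓ := ℓ) (K := K)) ?_
  rw [Metric.mem_eball, edist_zero_right, ← ofReal_norm]
  exact (ENNReal.ofReal_lt_ofReal_iff (expRad_pos ℓ)).2 hz

end

section
variable {ℓ : ℕ} [hℓ : Fact ℓ.Prime] {K : Type*} [NormedField K] [NormedAlgebra ℚ_[ℓ] K]
  [CompleteSpace K]

theorem hasSum_exp {z : K} (hz : ‖z‖ < expRad ℓ) :
    HasSum (fun k : ℕ => z ^ k / ((k ! : ℕ) : K)) (NormedSpace.exp z) :=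
  NormedSpace.expSeries_div_hasSum_exp_of_mem_ball ℚ_[ℓ] z (mem_eball_radius hz)

theorem exp_add' {x y : K} (hx : ‖x‖ < expRad ℓ) (hy : ‖y‖ < expRad ℓ) :
    NormedSpace.exp (x + y) = NormedSpace.exp x * NormedSpace.exp y :=
  NormedSpace.exp_add_of_mem_ball (𝕂 := ℚ_[ℓ]) (mem_eball_radius hx) (mem_eball_radius hy)

theorem exp_neg' {x : K} (hx : ‖x‖ < expRad ℓ) :
    NormedSpace.exp (-x) = (NormedSpace.exp x)⁻¹ :=
  NormedSpace.exp_neg_of_mem_ball (𝕂 := ℚ_[ℓ]) (mem_eball_radius hx)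

theorem exp_ne_zero' {x : K} (hx : ‖x‖ < expRad ℓ) : NormedSpace.exp x ≠ 0 := by
  intro h
  have h1 := exp_add' (ℓ := ℓ) hx (show ‖-x‖ < expRad ℓ by rwa [norm_neg])
  rw [add_neg_cancel, NormedSpace.exp_zero, h, zero_mul] at h1
  exact one_ne_zero h1

variable [IsUltrametricDist K]

omit [CompleteSpace K] in
theorem norm_sum_lt {ι : Type*} (s : Finset ι) (f : ι → K) {r : ℝ} (hr : 0 < r)
    (hf : ∀ i ∈ s, ‖f i‖ < r) : ‖∑ i ∈ s, f i‖ < r := by
  rcases s.eq_empty_or_nonempty with rfl | hs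
  · simpa using hr
  · obtain ⟨i, hi, h⟩ := IsUltrametricDist.exists_norm_finsetSum_le_of_nonempty hs f
    exact h.trans_lt (hf i hi)

theorem exp_sum' {ι : Type*} (s : Finset ι) (f : ι → K) (hf : ∀ i ∈ s, ‖f i‖ < expRad ℓ) :
    NormedSpace.exp (∑ i ∈ s, f i) = ∏ i ∈ s, NormedSpace.exp (f i) := by
  classical
  induction s using Finset.induction_on with
  | empty => simp
  | insert a t ha ih =>
    rw [Finset.sum_insert ha, Finset.prod_insert ha,
      exp_add' (ℓ := ℓ) (hf a (Finset.mem_insert_self a t))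
        (norm_sum_lt t f (expRad_pos ℓ) fun i hi => hf i (Finset.mem_insert_of_mem hi)),
      ih fun i hi => hf i (Finset.mem_insert_of_mem hi)]

omit [CompleteSpace K] in
theorem norm_natCast_mul_le (k : ℕ) (x : K) : ‖(k : K) * x‖ ≤ ‖x‖ := by
  rw [norm_mul]
  exact mul_le_of_le_one_left (norm_nonneg _) (IsUltrametricDist.norm_natCast_le_one K k)

theorem exp_natCast_mul (k : ℕ) {x : K} (hx : ‖x‖ < expRad ℓ) :
    NormedSpace.exp ((k : K) * x) = NormedSpace.exp x ^ k := by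
  induction k with
  | zero => simp
  | succ k ih =>
    rw [Nat.cast_succ, add_mul, one_mul,
      exp_add' (ℓ := ℓ) ((norm_natCast_mul_le k x).trans_lt hx) hx, ih, pow_succ]

end

end Claimed.Agent.R239.Log
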