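/-
Row 239, package LOG (Lemma 3.1), owner helper139.
The analytic upper bound for an interpolation determinant of exponentials in `card τ` variables.
-/
import Claimed.Agent.R239.LogExp

namespace Claimed.Agent.R239.Log

open scoped Nat

/-- ultrametric bound of a determinant by the product of row bounds. -/
theorem norm_det_le_prod {K : Type*} [NormedField K] [IsUltrametricDist K] {ι : Type*} [Fintype ι]
    [DecidableEq ι] (N : Matrix ι ι K) (b : ι → ℝ) (hb : ∀ i, 0 ≤ b i)
    (hN : ∀ i j, ‖N i j‖ ≤ b i) : ‖N.det‖ ≤ ∏ i, b i := by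
  rw [Matrix.det_apply]
  apply IsUltrametricDist.norm_sum_le_of_forall_le_of_nonneg (Finset.prod_nonneg fun i _ => hb i)
  intro σ _
  have h1 : ‖Equiv.Perm.sign σ • ∏ i, N (σ i) i‖ = ‖∏ i, N (σ i) i‖ := by
    rcases Int.units_eq_one_or (Equiv.Perm.sign σ) with h | h <;> simp [h]
  rw [h1, norm_prod, ← Equiv.prod_comp σ b]
  exact Finset.prod_le_prod (fun i _ => norm_nonneg _) fun i _ => hN _ _

/-- `card ι` distinct multi-indices in `card τ` variables have large total degree. -/
theorem sum_degree_ge {ι τ : Type*} [Fintype ι] [Fintype τ] (r : ι → τ → ℕ)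
    (hr : Function.Injective r) (T : ℕ) :
    T * (Fintype.card ι - T ^ Fintype.card τ) ≤ ∑ α, ∑ t, r α t := by
  classical
  set Sm : Finset ι := Finset.univ.filter fun α => ∀ t, r α t < T with hSm
  have hcard : Sm.card ≤ T ^ Fintype.card τ := by
    have : (Sm.image r) ⊆ Fintype.piFinset fun _ : τ => Finset.range T := by
      intro ν hν
      obtain ⟨α, hα, rfl⟩ := Finset.mem_image.1 hν
      rw [Fintype.mem_piFinset]
      intro t
      exact Finset.mem_range.2 ((Finset.mem_filter.1 hα).2 t)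
    have h2 := Finset.card_le_card this
    rw [Finset.card_image_of_injective _ hr, Fintype.card_piFinset] at h2
    simpa using h2
  have hcompl : Fintype.card ι - T ^ Fintype.card τ ≤ Smᶜ.card := by
    rw [Finset.card_compl]; omega
  calc T * (Fintype.card ι - T ^ Fintype.card τ) ≤ T * Smᶜ.card := Nat.mul_le_mul_left _ hcompl
    _ = ∑ α ∈ Smᶜ, T := by simp [mul_comm]
    _ ≤ ∑ α ∈ Smᶜ, ∑ t, r α t := by
        apply Finset.sum_le_sum
        intro α hα
        have : ¬ ∀ t, r α t < T := by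
          intro h
          exact (Finset.mem_compl.1 hα) (Finset.mem_filter.2 ⟨Finset.mem_univ _, h⟩)
        push Not at this
        obtain ⟨t, ht⟩ := this
        exact ht.trans (Finset.single_le_sum (f := fun t => r α t) (fun _ _ => Nat.zero_le _)
          (Finset.mem_univ t))
    _ ≤ ∑ α, ∑ t, r α t := Finset.sum_le_sum_of_subset (Finset.subset_univ _)

section
variable {ℓ : ℕ} [hℓ : Fact ℓ.Prime] {K : Type*} [NormedField K] [NormedAlgebra ℚ_[ℓ] K]
  [IsUltrametricDist K]

/-- truncated exponential. -/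
noncomputable def expTr (N : ℕ) (z : K) : K := ∑ k ∈ Finset.range N, z ^ k / ((k ! : ℕ) : K)

/-- the determinant bound for the truncated exponentials. -/
theorem norm_det_expTr_le {τ ι : Type*} [Fintype τ] [Fintype ι] [DecidableEq ι]
    (β Y : ι → τ → K) (hβ : ∀ α t, ‖β α t‖ ≤ 1) (ρ : ℝ) (hρ0 : 0 ≤ ρ) (hρ : ρ < expRad ℓ)
    (hY : ∀ a t, ‖Y a t‖ ≤ ρ) (T N : ℕ) :
    ‖Matrix.det (Matrix.of fun α a => ∏ t, expTr N (β α t * Y a t))‖ ≤
      (ρ / expRad ℓ) ^ (T * (Fintype.card ι - T ^ Fintype.card τ)) := by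
  classical
  have hpos := expRad_pos ℓ
  set η : ℝ := ρ / expRad ℓ with hη
  have hη0 : 0 ≤ η := div_nonneg hρ0 hpos.le
  have hη1 : η ≤ 1 := (div_le_one hpos).2 hρ.le
  set box : Finset (τ → ℕ) := Fintype.piFinset fun _ : τ => Finset.range N with hbox
  let B : ι → (τ → ℕ) → K := fun α ν => ∏ t, β α t ^ ν t
  let C : (τ → ℕ) → ι → K := fun ν a => ∏ t, Y a t ^ ν t / (((ν t) ! : ℕ) : K)
  have hB : ∀ α ν, ‖B α ν‖ ≤ 1 := by
    intro α ν
    simp only [B, norm_prod, norm_pow]
    exact Finset.prod_le_one (fun _ _ => by positivity) fun t _ => pow_le_one₀ (norm_nonneg _) (hβ α t)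
  have hC : ∀ ν a, ‖C ν a‖ ≤ η ^ (∑ t, ν t) := by
    intro ν a
    simp only [C, norm_prod]
    rw [← Finset.prod_pow_eq_pow_sum]
    apply Finset.prod_le_prod (fun _ _ => norm_nonneg _)
    intro t _
    refine (norm_pow_div_factorial_le (ℓ := ℓ) (Y a t) (ν t)).trans ?_
    apply pow_le_pow_left₀ (by positivity)
    rw [hη]; gcongr; exact hY a t
  have hM : (Matrix.of fun α a => ∏ t, expTr N (β α t * Y a t)) =
      fun α => ∑ ν ∈ box, B α ν • C ν := by
    funext α a
    simp only [Matrix.of_apply, expTr, Finset.sum_apply, Pi.smul_apply, smul_eq_mul, B, C]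
    rw [Finset.prod_univ_sum]
    apply Finset.sum_congr rfl
    intro ν _
    rw [← Finset.prod_mul_distrib]
    apply Finset.prod_congr rfl
    intro t _
    rw [mul_pow, mul_div_assoc]
  have hdet : Matrix.det (Matrix.of fun α a => ∏ t, expTr N (β α t * Y a t)) =
      ∑ r ∈ Fintype.piFinset (fun _ : ι => box), (∏ α, B α (r α)) * Matrix.det (fun α => C (r α)) := by
    rw [hM]
    have h1 := (Matrix.detRowAlternating (R := K) (n := ι)).toMultilinearMap.map_sum_finset
      (fun α ν => B α ν • C ν) (fun _ : ι => box)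
    have h2 : ∀ r : ι → τ → ℕ,
        (Matrix.detRowAlternating (R := K) (n := ι)).toMultilinearMap (fun α => B α (r α) • C (r α)) =
          (∏ α, B α (r α)) * Matrix.det (fun α => C (r α)) := by
      intro r
      rw [MultilinearMap.map_smul_univ]
      rfl
    simp only [h2] at h1
    exact h1
  rw [hdet]
  apply IsUltrametricDist.norm_sum_le_of_forall_le_of_nonneg (by positivity)
  intro r _
  by_cases hr : Function.Injective r
  · rw [norm_mul]
    have hb1 : ‖∏ α, B α (r α)‖ ≤ 1 := by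
      rw [norm_prod]
      exact Finset.prod_le_one (fun _ _ => norm_nonneg _) fun α _ => hB α (r α)
    have hb2 : ‖Matrix.det (fun α => C (r α))‖ ≤ ∏ α, η ^ (∑ t, r α t) :=
      norm_det_le_prod _ _ (fun _ => by positivity) fun α a => hC (r α) a
    rw [Finset.prod_pow_eq_pow_sum] at hb2
    calc ‖∏ α, B α (r α)‖ * ‖Matrix.det (fun α => C (r α))‖ ≤ 1 * η ^ (∑ α, ∑ t, r α t) := by
          gcongr
      _ = η ^ (∑ α, ∑ t, r α t) := one_mul _
      _ ≤ η ^ (T * (Fintype.card ι - T ^ Fintype.card τ)) :=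
          pow_le_pow_of_le_one hη0 hη1 (sum_degree_ge r hr T)
  · have : Matrix.det (fun α => C (r α)) = 0 := by
      rw [Function.Injective] at hr
      push Not at hr
      obtain ⟨a, b, hab, hne⟩ := hr
      exact Matrix.det_zero_of_row_eq hne (by simp [hab])
    rw [this, mul_zero, norm_zero]
    positivity

/-- **Analytic upper bound.**  An interpolation determinant of `card ι` exponentials of linear forms
in `card τ` variables is very small. -/
theorem norm_det_exp_le [CompleteSpace K] {τ ι : Type*} [Fintype τ] [Fintype ι] [DecidableEq ι]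
    (β Y : ι → τ → K) (hβ : ∀ α t, ‖β α t‖ ≤ 1) (ρ : ℝ) (hρ0 : 0 ≤ ρ) (hρ : ρ < expRad ℓ)
    (hY : ∀ a t, ‖Y a t‖ ≤ ρ) (T : ℕ) :
    ‖Matrix.det (Matrix.of fun α a => NormedSpace.exp (∑ t, β α t * Y a t))‖ ≤
      (ρ / expRad ℓ) ^ (T * (Fintype.card ι - T ^ Fintype.card τ)) := by
  classical
  have hz : ∀ α a t, ‖β α t * Y a t‖ < expRad ℓ := by
    intro α a t
    rw [norm_mul]
    calc ‖β α t‖ * ‖Y a t‖ ≤ 1 * ρ := by gcongr; exacts [hβ α t, hY a t]
      _ < expRad ℓ := by rwa [one_mul]
  have hlim : Filter.Tendsto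
      (fun N : ℕ => (Matrix.of fun α a => ∏ t, expTr N (β α t * Y a t) : Matrix ι ι K))
      Filter.atTop (nhds (Matrix.of fun α a => NormedSpace.exp (∑ t, β α t * Y a t))) := by
    refine tendsto_pi_nhds.2 fun α => tendsto_pi_nhds.2 fun a => ?_
    simp only [Matrix.of_apply]
    rw [exp_sum' (ℓ := ℓ) _ _ fun t _ => hz α a t]
    apply tendsto_finsetProd
    intro t _
    exact (hasSum_exp (hz α a t)).tendsto_sum_nat
  have hdet := ((continuous_id.matrix_det (n := ι) (R := K)).tendsto _).comp hlim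
  exact le_of_tendsto' hdet.norm fun N => norm_det_expTr_le β Y hβ ρ hρ0 hρ hY T N

end

end Claimed.Agent.R239.Log
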