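/-
Row 239, package LOG (Lemma 3.1), owner helper139.
The arithmetic lower bound (Liouville inequality): a nonzero algebraic integer whose complex
conjugates are bounded cannot be l-adically small.
-/
import Claimed.Agent.R239.LogExp

namespace Claimed.Agent.R239.Log

open scoped Nat
open Polynomial

/-- algebraic integers have norm at most one in an ultrametric field. -/
theorem norm_le_one_of_isIntegral {K : Type*} [NormedField K] [IsUltrametricDist K] {x : K}
    (hx : IsIntegral ℤ x) : ‖x‖ ≤ 1 := by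
  by_contra hlt
  push Not at hlt
  obtain ⟨p, hmonic, hp⟩ := hx
  rw [eval₂_eq_sum_range] at hp
  rw [Finset.sum_range_succ, hmonic.coeff_natDegree] at hp
  simp only [map_one, one_mul] at hp
  have h1 : x ^ p.natDegree = -∑ i ∈ Finset.range p.natDegree, (Int.castRingHom K) (p.coeff i) * x ^ i :=
    eq_neg_of_add_eq_zero_right hp
  have hpos : 0 < ‖x‖ := by linarith
  rcases Nat.eq_zero_or_pos p.natDegree with hd | hd
  · rw [hd] at h1; simp at h1
  have h2 : ‖x ^ p.natDegree‖ ≤ ‖x‖ ^ (p.natDegree - 1) := by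
    rw [h1, norm_neg]
    apply IsUltrametricDist.norm_sum_le_of_forall_le_of_nonneg (by positivity)
    intro i hi
    rw [norm_mul, norm_pow]
    have hi' : i ≤ p.natDegree - 1 := by have := Finset.mem_range.1 hi; omega
    calc ‖(Int.castRingHom K) (p.coeff i)‖ * ‖x‖ ^ i ≤ 1 * ‖x‖ ^ (p.natDegree - 1) := by
          gcongr
          · exact IsUltrametricDist.norm_intCast_le_one K _
          · exact hlt.le
      _ = _ := one_mul _
  rw [norm_pow] at h2
  have h3 : ‖x‖ ^ (p.natDegree - 1) < ‖x‖ ^ p.natDegree := pow_lt_pow_right₀ hlt (by omega)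
  linarith

/-- the constant coefficient of the minimal polynomial is divisible by the element. -/
theorem norm_coeff_zero_le {K : Type*} [NormedField K] [IsUltrametricDist K] {x : K}
    (hx : IsIntegral ℤ x) : ‖(((minpoly ℤ x).coeff 0 : ℤ) : K)‖ ≤ ‖x‖ := by
  set p := minpoly ℤ x with hp
  have h0 : aeval x p = 0 := minpoly.aeval ℤ x
  have h1 : aeval x (divX p * X + C (p.coeff 0)) = 0 := by rw [divX_mul_X_add]; exact h0
  simp only [map_add, map_mul, aeval_X, aeval_C] at h1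
  have h2 : ((p.coeff 0 : ℤ) : K) = -(aeval x (divX p) * x) := by
    have : algebraMap ℤ K (p.coeff 0) = ((p.coeff 0 : ℤ) : K) := by simp
    rw [← this]; exact eq_neg_of_add_eq_zero_right h1
  have h3 : IsIntegral ℤ (aeval x (divX p)) := by
    have hmem : aeval x (divX p) ∈ Algebra.adjoin ℤ {x} := by
      rw [Algebra.adjoin_singleton_eq_range_aeval]; exact ⟨_, rfl⟩
    exact IsIntegral.of_mem_of_fg _ hx.fg_adjoin_singleton _ hmem
  rw [h2, norm_neg, norm_mul]
  exact mul_le_of_le_one_left (norm_nonneg _) (norm_le_one_of_isIntegral h3)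

/-- a nonzero integer is not too small l-adically. -/
theorem inv_abs_le_norm_intCast {ℓ : ℕ} [hℓ : Fact ℓ.Prime] {K : Type*} [NormedField K]
    [NormedAlgebra ℚ_[ℓ] K] {a : ℤ} (ha : a ≠ 0) : (|(a : ℝ)|)⁻¹ ≤ ‖(a : K)‖ := by
  have h1 : ‖(a : K)‖ = ‖(a : ℚ_[ℓ])‖ := by
    rw [← norm_algebraMap' K (a : ℚ_[ℓ]), map_intCast]
  rw [h1, Padic.norm_eq_zpow_neg_valuation (by exact_mod_cast ha), Padic.valuation_intCast,
    zpow_neg, zpow_natCast]
  have hdvd : ((ℓ : ℤ) ^ padicValInt ℓ a) ∣ a := padicValInt_dvd a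
  have hle : ((ℓ : ℤ) ^ padicValInt ℓ a) ≤ |a| := by
    have := Int.le_of_dvd (abs_pos.2 ha) ((dvd_abs _ _).2 hdvd)
    exact this
  have hle' : ((ℓ : ℝ) ^ padicValInt ℓ a) ≤ |(a : ℝ)| := by exact_mod_cast hle
  have hpos : (0 : ℝ) < (ℓ : ℝ) ^ padicValInt ℓ a := by
    have : (0 : ℝ) < ℓ := by exact_mod_cast hℓ.out.pos
    positivity
  exact inv_anti₀ hpos hle'

theorem norm_multiset_prod_le (s : Multiset ℂ) (B : ℝ) (hB : 0 ≤ B) (h : ∀ z ∈ s, ‖z‖ ≤ B) :
    ‖s.prod‖ ≤ B ^ Multiset.card s := by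
  induction s using Multiset.induction_on with
  | empty => simp
  | cons a t ih =>
    rw [Multiset.prod_cons, Multiset.card_cons, norm_mul, pow_succ, mul_comm]
    have h1 := ih fun z hz => h z (Multiset.mem_cons_of_mem hz)
    have h2 := h a (Multiset.mem_cons_self a t)
    gcongr

/-- archimedean bound of the constant coefficient of the minimal polynomial. -/
theorem abs_coeff_zero_le {E : Type*} [Field E] [Algebra ℚ E] [FiniteDimensional ℚ E] (x : E)
    (hint : IsIntegral ℤ x) (B : ℝ) (hB : 1 ≤ B) (hτ : ∀ τ : E →ₐ[ℚ] ℂ, ‖τ x‖ ≤ B) :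
    |(((minpoly ℤ x).coeff 0 : ℤ) : ℝ)| ≤ B ^ Module.finrank ℚ E := by
  set p := minpoly ℤ x with hp
  have hpq : minpoly ℚ x = p.map (algebraMap ℤ ℚ) :=
    minpoly.isIntegrallyClosed_eq_field_fractions' ℚ hint
  set q : ℂ[X] := (minpoly ℚ x).map (algebraMap ℚ ℂ) with hq
  have hqm : q.Monic := (minpoly.monic hint.tower_top).map _
  have hsplit : q.Splits := IsAlgClosed.splits q
  have hc0 : q.coeff 0 = ((p.coeff 0 : ℤ) : ℂ) := by
    rw [hq, hpq, coeff_map, coeff_map]; simp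
  have hroots : ∀ z ∈ q.roots, ‖z‖ ≤ B := by
    intro z hz
    have hz' : z ∈ (minpoly ℚ x).rootSet ℂ := by
      rw [mem_rootSet']
      rw [mem_roots'] at hz
      refine ⟨hz.1, ?_⟩
      have := hz.2
      rwa [IsRoot.def, hq, eval_map_algebraMap] at this
    rw [← Algebra.IsAlgebraic.range_eval_eq_rootSet_minpoly ℂ x] at hz'
    obtain ⟨τ, rfl⟩ := hz'
    exact hτ τ
  have hcard : Multiset.card q.roots ≤ Module.finrank ℚ E := by
    calc Multiset.card q.roots ≤ q.natDegree := card_roots' q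
      _ = (minpoly ℚ x).natDegree := natDegree_map _
      _ ≤ Module.finrank ℚ E := minpoly.natDegree_le x
  have h1 := hsplit.coeff_zero_eq_prod_roots_of_monic hqm
  have h2 : ‖q.coeff 0‖ = ‖q.roots.prod‖ := by
    rw [h1, norm_mul, norm_pow, norm_neg, norm_one, one_pow, one_mul]
  have h3 : ‖q.coeff 0‖ = |((p.coeff 0 : ℤ) : ℝ)| := by
    rw [hc0, Complex.norm_intCast]
  rw [← h3, h2]
  exact (norm_multiset_prod_le _ B (by linarith) hroots).trans (pow_le_pow_right₀ hB hcard)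

/-- **Liouville inequality.** -/
theorem liouville_lower {ℓ : ℕ} [hℓ : Fact ℓ.Prime] {K : Type*} [NormedField K]
    [NormedAlgebra ℚ_[ℓ] K] [IsUltrametricDist K] [CharZero K]
    (E : IntermediateField ℚ K) [FiniteDimensional ℚ E] (x : E) (hint : IsIntegral ℤ x)
    (hx : x ≠ 0) (B : ℝ) (hB : 1 ≤ B) (hτ : ∀ τ : E →ₐ[ℚ] ℂ, ‖τ x‖ ≤ B) :
    (B ^ Module.finrank ℚ E)⁻¹ ≤ ‖(x : K)‖ := by
  have hintK : IsIntegral ℤ (x : K) := hint.map (E.val.restrictScalars ℤ)
  have hmin : minpoly ℤ (x : K) = minpoly ℤ x :=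
    minpoly.algebraMap_eq (algebraMap E K).injective x
  have h0 : (minpoly ℤ x).coeff 0 ≠ 0 := by
    intro h
    have hpq : minpoly ℚ x = (minpoly ℤ x).map (algebraMap ℤ ℚ) :=
      minpoly.isIntegrallyClosed_eq_field_fractions' ℚ hint
    apply minpoly.coeff_zero_ne_zero (A := ℚ) hint.tower_top hx
    rw [hpq, coeff_map, h, map_zero]
  have h1 := abs_coeff_zero_le x hint B hB hτ
  have h2 := norm_coeff_zero_le hintK
  rw [hmin] at h2
  have h3 := inv_abs_le_norm_intCast (ℓ := ℓ) (K := K) h0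
  have hpos : (0 : ℝ) < |(((minpoly ℤ x).coeff 0 : ℤ) : ℝ)| := by
    rw [abs_pos]; exact_mod_cast h0
  exact (inv_anti₀ hpos h1).trans (h3.trans h2)

/-- **Arithmetic lower bound for interpolation determinants.**  The constants `d`, `H` depend only
on the finitely many algebraic integers `u i j`. -/
theorem det_lower {ℓ : ℕ} [hℓ : Fact ℓ.Prime] {K : Type*} [NormedField K]
    [NormedAlgebra ℚ_[ℓ] K] [IsUltrametricDist K] (m n : ℕ) (u : Fin m → Fin n → K)
    (hint : ∀ i j, IsIntegral ℤ (u i j)) :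
    ∃ (d : ℕ) (H : ℝ), 1 ≤ H ∧ ∀ (ι : Type) [Fintype ι] [DecidableEq ι] (N : ℕ)
      (ex : ι → ι → Fin m → Fin n → ℕ), (∀ α a i j, ex α a i j ≤ N) →
      Matrix.det (Matrix.of fun α a => ∏ i, ∏ j, u i j ^ ex α a i j) ≠ 0 →
      (((((Fintype.card ι)! : ℕ) : ℝ) * H ^ (N * Fintype.card ι)) ^ d)⁻¹ ≤
        ‖Matrix.det (Matrix.of fun α a => ∏ i, ∏ j, u i j ^ ex α a i j)‖ := by
  classical
  have : CharZero K := charZero_of_injective_algebraMap (algebraMap ℚ_[ℓ] K).injective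
  set Sset : Set K := Set.range (fun p : Fin m × Fin n => u p.1 p.2) with hS
  have : Finite Sset := Set.finite_range _
  set E : IntermediateField ℚ K := IntermediateField.adjoin ℚ Sset with hE
  have : FiniteDimensional ℚ E := IntermediateField.finiteDimensional_adjoin (by
    rintro x ⟨p, rfl⟩
    exact (hint p.1 p.2).tower_top)
  let v : Fin m → Fin n → E := fun i j =>
    ⟨u i j, IntermediateField.subset_adjoin ℚ Sset ⟨(i, j), rfl⟩⟩
  have hv : ∀ i j, IsIntegral ℤ (v i j) := by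
    intro i j
    have h := hint i j
    exact (isIntegral_algebraMap_iff (A := E) (B := K) (algebraMap E K).injective).1 h
  set H₀ : ℝ := 1 + ∑ τ : E →ₐ[ℚ] ℂ, ∑ i, ∑ j, ‖τ (v i j)‖ with hH₀
  have hH₀1 : 1 ≤ H₀ := by
    rw [hH₀]
    have : 0 ≤ ∑ τ : E →ₐ[ℚ] ℂ, ∑ i, ∑ j, ‖τ (v i j)‖ := by positivity
    linarith
  have hle : ∀ (τ : E →ₐ[ℚ] ℂ) i j, ‖τ (v i j)‖ ≤ H₀ := by
    intro τ i j
    have h1 : ‖τ (v i j)‖ ≤ ∑ j, ‖τ (v i j)‖ :=
      Finset.single_le_sum (f := fun j => ‖τ (v i j)‖) (fun _ _ => norm_nonneg _) (Finset.mem_univ j)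
    have h2 : ∑ j, ‖τ (v i j)‖ ≤ ∑ i, ∑ j, ‖τ (v i j)‖ :=
      Finset.single_le_sum (f := fun i => ∑ j, ‖τ (v i j)‖) (fun _ _ => by positivity)
        (Finset.mem_univ i)
    have h3 : ∑ i, ∑ j, ‖τ (v i j)‖ ≤ ∑ τ : E →ₐ[ℚ] ℂ, ∑ i, ∑ j, ‖τ (v i j)‖ :=
      Finset.single_le_sum (f := fun τ : E →ₐ[ℚ] ℂ => ∑ i, ∑ j, ‖τ (v i j)‖)
        (fun _ _ => by positivity) (Finset.mem_univ τ)
    rw [hH₀]; linarith
  refine ⟨Module.finrank ℚ E, H₀ ^ (m * n), one_le_pow₀ hH₀1, ?_⟩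
  intro ι _ _ N ex hex hne
  set ME : Matrix ι ι E := Matrix.of fun α a => ∏ i, ∏ j, v i j ^ ex α a i j with hME
  have hmap : (algebraMap E K) ME.det =
      Matrix.det (Matrix.of fun α a => ∏ i, ∏ j, u i j ^ ex α a i j) := by
    rw [RingHom.map_det]
    congr 1
    ext α a
    simp [ME, v, map_prod]
  have hx0 : ME.det ≠ 0 := by
    intro h
    apply hne
    rw [← hmap, h, map_zero]
  have hintdet : IsIntegral ℤ ME.det := IsIntegral.det fun α a => by
    simp only [ME, Matrix.of_apply]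
    exact IsIntegral.prod _ fun i _ => IsIntegral.prod _ fun j _ => (hv i j).pow _
  have hτ : ∀ τ : E →ₐ[ℚ] ℂ, ‖τ ME.det‖ ≤
      (((Fintype.card ι)! : ℕ) : ℝ) * (H₀ ^ (m * n)) ^ (N * Fintype.card ι) := by
    intro τ
    have h1 : τ ME.det = (τ.toRingHom.mapMatrix ME).det := by
      rw [← RingHom.map_det]; rfl
    rw [h1]
    have h2 := Matrix.det_le (A := τ.toRingHom.mapMatrix ME)
      (abv := IsAbsoluteValue.toAbsoluteValue (norm : ℂ → ℝ)) (x := (H₀ ^ (m * n)) ^ N) (by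
        intro α a
        change ‖τ (ME α a)‖ ≤ _
        simp only [ME, Matrix.of_apply, map_prod, map_pow, norm_prod, norm_pow]
        calc ∏ i, ∏ j, ‖τ (v i j)‖ ^ ex α a i j ≤ ∏ i : Fin m, ∏ j : Fin n, H₀ ^ N := by
              apply Finset.prod_le_prod (fun _ _ => by positivity)
              intro i _
              apply Finset.prod_le_prod (fun _ _ => by positivity)
              intro j _
              calc ‖τ (v i j)‖ ^ ex α a i j ≤ H₀ ^ ex α a i j :=
                    pow_le_pow_left₀ (norm_nonneg _) (hle τ i j) _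
                _ ≤ H₀ ^ N := pow_le_pow_right₀ hH₀1 (hex α a i j)
          _ = (H₀ ^ (m * n)) ^ N := by
              simp only [Finset.prod_const, Finset.card_univ, Fintype.card_fin]
              rw [← pow_mul, ← pow_mul, ← pow_mul]; congr 1; ring)
    have h3 : ‖(τ.toRingHom.mapMatrix ME).det‖ ≤
        (Fintype.card ι)! • ((H₀ ^ (m * n)) ^ N) ^ Fintype.card ι := h2
    rw [nsmul_eq_mul, ← pow_mul] at h3
    exact h3
  have hB : (1 : ℝ) ≤ (((Fintype.card ι)! : ℕ) : ℝ) * (H₀ ^ (m * n)) ^ (N * Fintype.card ι) := by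
    have h1 : (1 : ℝ) ≤ (((Fintype.card ι)! : ℕ) : ℝ) := by
      exact_mod_cast Nat.one_le_iff_ne_zero.2 (Nat.factorial_ne_zero _)
    have h2 : (1 : ℝ) ≤ (H₀ ^ (m * n)) ^ (N * Fintype.card ι) := one_le_pow₀ (one_le_pow₀ hH₀1)
    calc (1 : ℝ) = 1 * 1 := (one_mul 1).symm
      _ ≤ _ := by gcongr
  have := liouville_lower (ℓ := ℓ) E ME.det hintdet hx0 _ hB hτ
  rw [← hmap]
  exact this

end Claimed.Agent.R239.Log
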