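/-
Row 239, package LOG (Lemma 3.1), owner helper139.
The choice of the parameters in the transcendence argument (pure arithmetic).
-/
import Mathlib

namespace Claimed.Agent.R239.Log

open scoped Nat

theorem two_mul_sq_le_eight_pow (V : ℕ) (hV : 1 ≤ V) : 2 * V ^ 2 ≤ 8 ^ V := by
  have h1 : V ≤ 2 ^ V := Nat.lt_two_pow_self.le
  have h2 : 2 ≤ 2 ^ V := by
    calc 2 = 2 ^ 1 := rfl
      _ ≤ 2 ^ V := Nat.pow_le_pow_right (by omega) hV
  calc 2 * V ^ 2 = 2 * (V * V) := by ring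
    _ ≤ 2 ^ V * (2 ^ V * 2 ^ V) := Nat.mul_le_mul h2 (Nat.mul_le_mul h1 h1)
    _ = 8 ^ V := by rw [← mul_pow, ← mul_pow]; norm_num

theorem pow_rearrange (a g : ℝ) (V Z A k : ℕ) :
    a ^ (V * Z * A) * ((g ^ Z) ^ A) ^ k = ((a ^ V * g ^ k) ^ Z) ^ A := by
  rw [mul_pow, mul_pow]
  simp only [← pow_mul]
  congr 2
  ring

theorem sq_rearrange (a b : ℝ) (E d : ℕ) : (a ^ E * b ^ d) ^ 2 = a ^ (2 * E) * b ^ (2 * d) := by
  rw [mul_pow, ← pow_mul, ← pow_mul, mul_comm E 2, mul_comm d 2]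

/-- **Parameters.**  `n = r + 1` variables, `m = 2 r 2^n + 1` points, `S = V`, `D + 1 = (2V²)^r`,
`T = V^(2n)`, `A = (D+1)^n`, `N = n S D`. -/
theorem exists_params (η H : ℝ) (hη0 : 0 ≤ η) (hη1 : η < 1) (hH : 1 ≤ H) (d₀ r : ℕ) (hr : 1 ≤ r) :
    ∃ V D : ℕ,
      (2 * ((r + 1) * D) + 2) ^ (2 ^ (r + 1)) < (V + 1) ^ (2 * r * 2 ^ (r + 1) + 1) ∧
      η ^ ((V ^ 2) ^ (r + 1) * ((D + 1) ^ (r + 1) - ((V ^ 2) ^ (r + 1)) ^ r)) *
        (((((D + 1) ^ (r + 1))! : ℕ) : ℝ) * H ^ (((r + 1) * V * D) * (D + 1) ^ (r + 1))) ^ d₀ < 1 := by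
  set n := r + 1 with hn
  set G : ℝ := 8 ^ (r * n) * H ^ (n * 2 ^ r) with hG
  have hG1 : 1 ≤ G := by
    have h1 : (1 : ℝ) ≤ 8 ^ (r * n) := one_le_pow₀ (by norm_num)
    have h2 : (1 : ℝ) ≤ H ^ (n * 2 ^ r) := one_le_pow₀ hH
    calc (1 : ℝ) = 1 * 1 := (one_mul 1).symm
      _ ≤ G := by rw [hG]; gcongr
  have hGpos : 0 < G ^ (2 * d₀) := by positivity
  obtain ⟨V₁, hV₁⟩ := exists_pow_lt_of_lt_one (inv_pos.2 hGpos) hη1
  set V₂ : ℕ := (2 * n * 2 ^ r) ^ (2 ^ n) with hV₂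
  set V : ℕ := V₁ + V₂ + 1 with hV
  have hV1 : 1 ≤ V := by omega
  have hbase : η ^ V * G ^ (2 * d₀) < 1 := by
    have h1 : η ^ V ≤ η ^ V₁ := pow_le_pow_of_le_one hη0 hη1.le (by omega)
    calc η ^ V * G ^ (2 * d₀) ≤ η ^ V₁ * G ^ (2 * d₀) := by gcongr
      _ < (G ^ (2 * d₀))⁻¹ * G ^ (2 * d₀) := by gcongr
      _ = 1 := inv_mul_cancel₀ hGpos.ne'
  have hDpos : 1 ≤ (2 * V ^ 2) ^ r := Nat.one_le_pow _ _ (by positivity)
  obtain ⟨D, hD⟩ : ∃ D, D + 1 = (2 * V ^ 2) ^ r := ⟨(2 * V ^ 2) ^ r - 1, by omega⟩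
  refine ⟨V, D, ?_, ?_⟩
  · -- the zero estimate condition
    have h1 : 2 * (n * D) + 2 ≤ 2 * n * 2 ^ r * V ^ (2 * r) := by
      calc 2 * (n * D) + 2 ≤ 2 * n * (D + 1) := by
            have : 1 ≤ n := by omega
            nlinarith
        _ = 2 * n * 2 ^ r * V ^ (2 * r) := by rw [hD, mul_pow, ← pow_mul]; ring
    calc (2 * (n * D) + 2) ^ (2 ^ n) ≤ (2 * n * 2 ^ r * V ^ (2 * r)) ^ (2 ^ n) :=
          Nat.pow_le_pow_left h1 _
      _ = V₂ * V ^ (2 * r * 2 ^ n) := by rw [mul_pow, ← pow_mul]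
      _ ≤ V * V ^ (2 * r * 2 ^ n) := Nat.mul_le_mul_right _ (by omega)
      _ = V ^ (2 * r * 2 ^ n + 1) := (pow_succ' V _).symm
      _ < (V + 1) ^ (2 * r * 2 ^ n + 1) := Nat.pow_lt_pow_left (by omega) (by omega)
  · set A : ℕ := (D + 1) ^ n with hA
    set T : ℕ := (V ^ 2) ^ n with hT
    set N : ℕ := n * V * D with hN
    set Z : ℕ := V ^ (2 * r + 1) with hZ
    have hZ1 : 1 ≤ Z := Nat.one_le_pow _ _ hV1
    have hVZ : V ≤ Z := by
      calc V = V ^ 1 := (pow_one V).symm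
        _ ≤ V ^ (2 * r + 1) := Nat.pow_le_pow_right hV1 (by omega)
    have hA1 : 1 ≤ A := Nat.one_le_pow _ _ (by omega)
    have hAeq : A = (2 * V ^ 2) ^ (r * n) := by rw [hA, hD, ← pow_mul]
    have hTZ : T = V * Z := by
      rw [hT, hZ, ← pow_mul, hn, ← pow_succ']; congr 1
    -- `2 * T ^ r ≤ A`
    have h2T : 2 * T ^ r ≤ A := by
      rw [hAeq, hT, ← pow_mul, mul_pow, mul_comm n r]
      apply Nat.mul_le_mul_right
      calc 2 = 2 ^ 1 := rfl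
        _ ≤ 2 ^ (r * n) := Nat.pow_le_pow_right (by omega) (by nlinarith)
    have hE : T * A ≤ 2 * (T * (A - T ^ r)) := by
      have : A ≤ 2 * (A - T ^ r) := by omega
      calc T * A ≤ T * (2 * (A - T ^ r)) := Nat.mul_le_mul_left _ this
        _ = _ := by ring
    -- `A * H ^ N ≤ G ^ Z`
    have hAle : (A : ℝ) ≤ (8 ^ (r * n)) ^ Z := by
      have h1 : A ≤ (8 ^ (r * n)) ^ Z := by
        calc A = (2 * V ^ 2) ^ (r * n) := hAeq
          _ ≤ (8 ^ V) ^ (r * n) := Nat.pow_le_pow_left (two_mul_sq_le_eight_pow V hV1) _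
          _ = (8 ^ (r * n)) ^ V := by rw [← pow_mul, ← pow_mul, mul_comm]
          _ ≤ (8 ^ (r * n)) ^ Z := Nat.pow_le_pow_right (Nat.one_le_pow _ _ (by omega)) hVZ
      exact_mod_cast h1
    have hNle : N ≤ n * 2 ^ r * Z := by
      calc N = n * V * D := rfl
        _ ≤ n * V * (D + 1) := Nat.mul_le_mul_left _ (Nat.le_succ D)
        _ = n * 2 ^ r * Z := by rw [hD, hZ, mul_pow, ← pow_mul, pow_succ]; ring
    have hHle : H ^ N ≤ (H ^ (n * 2 ^ r)) ^ Z := by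
      rw [← pow_mul]; exact pow_le_pow_right₀ hH hNle
    have hAH : (A : ℝ) * H ^ N ≤ G ^ Z := by
      rw [hG, mul_pow]
      have : (0 : ℝ) ≤ H ^ N := by positivity
      gcongr
    have hAH0 : (0 : ℝ) ≤ (A : ℝ) * H ^ N := by positivity
    -- the factorial
    have hfac : (((A)! : ℕ) : ℝ) * H ^ (N * A) ≤ ((A : ℝ) * H ^ N) ^ A := by
      rw [mul_pow, ← pow_mul]
      have h1 : ((A ! : ℕ) : ℝ) ≤ (A : ℝ) ^ A := by exact_mod_cast Nat.factorial_le_pow A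
      have : (0 : ℝ) ≤ H ^ (N * A) := by positivity
      gcongr
    set x : ℝ := η ^ (T * (A - T ^ r)) * ((((A)! : ℕ) : ℝ) * H ^ (N * A)) ^ d₀ with hx
    have hx0 : 0 ≤ x := by positivity
    have hb0 : 0 ≤ η ^ V * G ^ (2 * d₀) := by positivity
    have hsq : x ^ 2 < 1 := by
      calc x ^ 2 = η ^ (2 * (T * (A - T ^ r))) * ((((A)! : ℕ) : ℝ) * H ^ (N * A)) ^ (2 * d₀) := by
            rw [hx]; exact sq_rearrange _ _ _ _
        _ ≤ η ^ (T * A) * (((A : ℝ) * H ^ N) ^ A) ^ (2 * d₀) := by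
            have h1 : η ^ (2 * (T * (A - T ^ r))) ≤ η ^ (T * A) :=
              pow_le_pow_of_le_one hη0 hη1.le hE
            have h2 : ((((A)! : ℕ) : ℝ) * H ^ (N * A)) ^ (2 * d₀) ≤
                (((A : ℝ) * H ^ N) ^ A) ^ (2 * d₀) := pow_le_pow_left₀ (by positivity) hfac _
            gcongr
        _ ≤ η ^ (T * A) * ((G ^ Z) ^ A) ^ (2 * d₀) := by gcongr
        _ = ((η ^ V * G ^ (2 * d₀)) ^ Z) ^ A := by
            rw [hTZ]; exact pow_rearrange η G V Z A (2 * d₀)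
        _ < 1 := pow_lt_one₀ (by positivity) (pow_lt_one₀ hb0 hbase (by omega)) (by omega)
    by_contra hge
    push Not at hge
    have : (1 : ℝ) ≤ x ^ 2 := one_le_pow₀ hge
    linarith

end Claimed.Agent.R239.Log
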