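/-
Row 239, package LOG (Lemma 3.1), owner helper139.
Elimination of one variable: two relatively prime polynomials in `n + 1` variables have a nonzero
resultant in `n` variables, of controlled degree, which vanishes at the projections of their common
zeros.
-/
import Mathlib

namespace Claimed.Agent.R239.Log

open Polynomial

/-- Gauss: relatively prime over a GCD domain implies coprime over the fraction field. -/
theorem isCoprime_map_of_isRelPrime {R : Type*} [CommRing R] [IsDomain R] [IsGCDMonoid R]
    (F : Type*) [Field F] [Algebra R F] [IsFractionRing R F] {f g : R[X]} (h : IsRelPrime f g) :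
    IsCoprime (f.map (algebraMap R F)) (g.map (algebraMap R F)) := by
  classical
  let _ : NormalizedGCDMonoid R := Nonempty.some inferInstance
  apply IsRelPrime.isCoprime
  intro d hdf hdg
  have hinj : Function.Injective (algebraMap R F) := IsFractionRing.injective R F
  have hd0 : d ≠ 0 := by
    rintro rfl
    rw [zero_dvd_iff, Polynomial.map_eq_zero_iff hinj] at hdf hdg
    subst hdf hdg
    have : IsUnit (X : R[X]) := h (dvd_zero _) (dvd_zero _)
    exact not_isUnit_X this
  apply isUnit_or_eq_zero_of_isUnit_integerNormalization_primPart (R := R) hd0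
  set N := IsLocalization.integerNormalization (nonZeroDivisors R) d with hN
  obtain ⟨b, hb, hspec⟩ := IsLocalization.integerNormalization_spec (nonZeroDivisors R) d
  have hb0 : algebraMap R F b ≠ 0 := by
    rw [Ne, map_eq_zero_iff _ hinj]; exact nonZeroDivisors.ne_zero hb
  have hdvd : N.primPart.map (algebraMap R F) ∣ d := by
    have h1 : N.map (algebraMap R F) = C (algebraMap R F N.content) * N.primPart.map (algebraMap R F) := by
      conv_lhs => rw [N.eq_C_content_mul_primPart]
      rw [Polynomial.map_mul, map_C]
    have h2 : d = C (algebraMap R F b)⁻¹ * N.map (algebraMap R F) := by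
      rw [hspec, Algebra.smul_def, Polynomial.algebraMap_apply, ← mul_assoc, ← C_mul]
      simp [hb0]
    rw [h2, h1, ← mul_assoc]
    exact Dvd.intro_left _ rfl
  have hprim : N.primPart.IsPrimitive := N.isPrimitive_primPart
  exact h (hprim.dvd_of_fraction_map_dvd_fraction_map (hdvd.trans hdf))
    (hprim.dvd_of_fraction_map_dvd_fraction_map (hdvd.trans hdg))

/-- the resultant of relatively prime polynomials over a GCD domain is nonzero. -/
theorem resultant_ne_zero_of_isRelPrime {R : Type*} [CommRing R] [IsDomain R] [IsGCDMonoid R]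
    {f g : R[X]} (h : IsRelPrime f g) : resultant f g ≠ 0 := by
  intro h0
  have hinj : Function.Injective (algebraMap R (FractionRing R)) := IsFractionRing.injective _ _
  have hco := isCoprime_map_of_isRelPrime (FractionRing R) h
  have h1 := resultant_map_map f g f.natDegree g.natDegree (algebraMap R (FractionRing R))
  rw [h0, map_zero] at h1
  have h2 : resultant (f.map (algebraMap R (FractionRing R))) (g.map (algebraMap R (FractionRing R))) = 0 := by
    rw [natDegree_map_eq_of_injective hinj, natDegree_map_eq_of_injective hinj]; exact h1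
  exact (resultant_eq_zero_iff.1 h2).2 hco

theorem totalDegree_det_le {K σ ι : Type*} [CommRing K] [Fintype ι] [DecidableEq ι]
    (M : Matrix ι ι (MvPolynomial σ K)) (δ : ℕ) (hM : ∀ i j, (M i j).totalDegree ≤ δ) :
    M.det.totalDegree ≤ Fintype.card ι * δ := by
  rw [Matrix.det_apply]
  apply MvPolynomial.totalDegree_finsetSum_le
  intro τ _
  have h1 : (∏ i, M (τ i) i).totalDegree ≤ Fintype.card ι * δ := by
    refine (MvPolynomial.totalDegree_finsetProd _ _).trans ?_
    calc ∑ i, (M (τ i) i).totalDegree ≤ ∑ _i : ι, δ := Finset.sum_le_sum fun i _ => hM _ _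
      _ = Fintype.card ι * δ := by simp
  rcases Int.units_eq_one_or (Equiv.Perm.sign τ) with h | h
  · rw [h, one_smul]; exact h1
  · rw [h, Units.neg_smul, one_smul, MvPolynomial.totalDegree_neg]; exact h1

theorem totalDegree_coeff_finSuccEquiv_le {K : Type*} [CommRing K] {n : ℕ}
    (P : MvPolynomial (Fin (n + 1)) K) (i : ℕ) :
    ((MvPolynomial.finSuccEquiv K n P).coeff i).totalDegree ≤ P.totalDegree := by
  by_cases h : (MvPolynomial.finSuccEquiv K n P).coeff i = 0
  · rw [h]; simp
  · have := MvPolynomial.totalDegree_coeff_finSuccEquiv_add_le P i h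
    omega

theorem totalDegree_resultant_le {K σ : Type*} [CommRing K] (f g : (MvPolynomial σ K)[X]) (δ : ℕ)
    (hf : ∀ i, (f.coeff i).totalDegree ≤ δ) (hg : ∀ i, (g.coeff i).totalDegree ≤ δ) (m n : ℕ) :
    (resultant f g m n).totalDegree ≤ (m + n) * δ := by
  have := totalDegree_det_le (sylvester f g m n) δ (by
    intro i j
    refine Fin.addCases (fun j₁ => ?_) (fun j₁ => ?_) j
    · simp only [sylvester, Matrix.of_apply, Fin.addCases_left]
      split_ifs
      · exact hg _
      · simp
    · simp only [sylvester, Matrix.of_apply, Fin.addCases_right]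
      split_ifs
      · exact hf _
      · simp)
  simpa [resultant] using this

/-- **Elimination.** -/
theorem exists_elim {K : Type*} [Field K] {n : ℕ} (P Q : MvPolynomial (Fin (n + 1)) K)
    (h : IsRelPrime P Q) (hP : P ≠ 0) (δ : ℕ) (hPd : P.totalDegree ≤ δ) (hQd : Q.totalDegree ≤ δ) :
    ∃ R₀ : MvPolynomial (Fin n) K, R₀ ≠ 0 ∧ R₀.totalDegree ≤ 2 * δ ^ 2 ∧
      ∀ (x₀ : K) (x' : Fin n → K), MvPolynomial.eval (Fin.cons x₀ x') P = 0 →
        MvPolynomial.eval (Fin.cons x₀ x') Q = 0 → MvPolynomial.eval x' R₀ = 0 := by
  set e := MvPolynomial.finSuccEquiv K n with he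
  set f := e P with hf
  set g := e Q with hg
  have hf0 : f ≠ 0 := by rw [hf]; simpa using hP
  have hrel : IsRelPrime f g := by
    intro d hdf hdg
    have h1 : e.symm d ∣ P := by
      have := map_dvd e.symm hdf
      simpa [hf] using this
    have h2 : e.symm d ∣ Q := by
      have := map_dvd e.symm hdg
      simpa [hg] using this
    have h3 := (h h1 h2).map e
    simpa using h3
  have hcf : ∀ i, (f.coeff i).totalDegree ≤ δ := fun i =>
    (totalDegree_coeff_finSuccEquiv_le P i).trans hPd
  have hcg : ∀ i, (g.coeff i).totalDegree ≤ δ := fun i =>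
    (totalDegree_coeff_finSuccEquiv_le Q i).trans hQd
  by_cases hdeg : f.natDegree = 0
  · have hfC : f = C (f.coeff 0) := eq_C_of_natDegree_eq_zero hdeg
    refine ⟨f.coeff 0, ?_, (hcf 0).trans (by nlinarith), ?_⟩
    · intro h0; rw [h0, map_zero] at hfC; exact hf0 hfC
    · intro x₀ x' hPx _
      rw [MvPolynomial.eval_eq_eval_mv_eval'] at hPx
      change eval x₀ (Polynomial.map (MvPolynomial.eval x') f) = 0 at hPx
      rw [hfC] at hPx
      simpa using hPx
  · refine ⟨resultant f g, resultant_ne_zero_of_isRelPrime hrel, ?_, ?_⟩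
    · refine (totalDegree_resultant_le f g δ hcf hcg _ _).trans ?_
      have h1 : f.natDegree ≤ δ := by
        rw [hf, he, MvPolynomial.natDegree_finSuccEquiv]
        exact (MvPolynomial.degreeOf_le_totalDegree _ _).trans hPd
      have h2 : g.natDegree ≤ δ := by
        rw [hg, he, MvPolynomial.natDegree_finSuccEquiv]
        exact (MvPolynomial.degreeOf_le_totalDegree _ _).trans hQd
      nlinarith
    · intro x₀ x' hPx hQx
      rw [MvPolynomial.eval_eq_eval_mv_eval'] at hPx hQx
      change eval x₀ (Polynomial.map (MvPolynomial.eval x') f) = 0 at hPx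
      change eval x₀ (Polynomial.map (MvPolynomial.eval x') g) = 0 at hQx
      obtain ⟨p, q, -, -, hpq⟩ := exists_mul_add_mul_eq_C_resultant f g le_rfl le_rfl (Or.inl hdeg)
      have h3 := congrArg (fun t => eval x₀ (Polynomial.map (MvPolynomial.eval x') t)) hpq
      simp only [Polynomial.map_add, Polynomial.map_mul, eval_add, eval_mul, hPx, hQx, zero_mul,
        add_zero, map_C, eval_C] at h3
      exact h3.symm

end Claimed.Agent.R239.Log
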