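/-
Row 239, package LOG (Lemma 3.1), owner helper139.
The (crude, elementary) zero estimate on the torus: a nonzero polynomial of degree `≤ δ` cannot
vanish on the whole grid `u ^ a`, `a ≤ n S`, as soon as `(2δ+2)^(2^n) < (S+1)^m`.
-/
import Claimed.Agent.R239.LogExp
import Claimed.Agent.R239.LogElim

namespace Claimed.Agent.R239.Log

open MvPolynomial

section rescale
variable {K : Type*} [Field K] {σ : Type*}

/-- rescaling of the variables `X j ↦ g j * X j`. -/
noncomputable def rescale (g : σ → K) : MvPolynomial σ K →ₐ[K] MvPolynomial σ K :=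
  aeval fun j => C (g j) * X j

theorem rescale_monomial (g : σ → K) (α : σ →₀ ℕ) (c : K) :
    rescale g (monomial α c) = monomial α (c * α.prod fun j k => g j ^ k) := by
  rw [rescale, aeval_monomial]
  simp only [mul_pow, Finsupp.prod_mul]
  rw [monomial_eq (s := α), C_mul, algebraMap_eq, mul_assoc]
  congr 1
  rw [Finsupp.prod, Finsupp.prod, Finsupp.prod, map_prod]
  simp

theorem coeff_rescale (g : σ → K) (α : σ →₀ ℕ) (P : MvPolynomial σ K) :
    coeff α (rescale g P) = coeff α P * α.prod fun j k => g j ^ k := by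
  classical
  induction P using MvPolynomial.induction_on' with
  | monomial β c =>
    rw [rescale_monomial, coeff_monomial, coeff_monomial]
    split_ifs with h
    · rw [h]
    · simp
  | add p q hp hq => rw [map_add, coeff_add, coeff_add, hp, hq, add_mul]

theorem eval_rescale (g x : σ → K) (P : MvPolynomial σ K) :
    eval x (rescale g P) = eval (fun j => g j * x j) P := by
  induction P using MvPolynomial.induction_on with
  | C a => simp [rescale]
  | add p q hp hq => rw [map_add, map_add, map_add, hp, hq]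
  | mul_X p j hp =>
    rw [map_mul, map_mul, map_mul, hp]
    simp [rescale]

theorem rescale_rescale (g h : σ → K) (P : MvPolynomial σ K) :
    rescale g (rescale h P) = rescale (fun j => g j * h j) P := by
  induction P using MvPolynomial.induction_on with
  | C a => simp [rescale]
  | add p q hp hq => simp [hp, hq]
  | mul_X p j hp =>
    rw [map_mul, map_mul, map_mul, hp]
    congr 1
    simp [rescale]
    ring

theorem rescale_one (P : MvPolynomial σ K) : rescale (fun _ => (1 : K)) P = P := by
  simp [rescale]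

/-- rescaling by nonzero factors is an automorphism. -/
noncomputable def rescaleEquiv (g : σ → K) (hg : ∀ j, g j ≠ 0) :
    MvPolynomial σ K ≃ₐ[K] MvPolynomial σ K :=
  AlgEquiv.ofAlgHom (rescale g) (rescale fun j => (g j)⁻¹)
    (by ext j; simp [rescale, hg j, ← mul_assoc, ← C_mul])
    (by ext j; simp [rescale, hg j, ← mul_assoc, ← C_mul])

@[simp] theorem rescaleEquiv_apply (g : σ → K) (hg : ∀ j, g j ≠ 0) (P : MvPolynomial σ K) :
    rescaleEquiv g hg P = rescale g P := rfl

theorem totalDegree_rescale_le (g : σ → K) (P : MvPolynomial σ K) :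
    (rescale g P).totalDegree ≤ P.totalDegree := by
  apply totalDegree_le_of_support_subset
  intro α hα
  rw [mem_support_iff, coeff_rescale] at hα
  rw [mem_support_iff]
  exact left_ne_zero_of_mul hα

end rescale

section torus
variable {K : Type*} [Field K] {m n : ℕ}

theorem torusPt_ne_zero {u : Fin m → Fin n → K} (hu : MulIndep u) (a : Fin m → ℕ) (j : Fin n) :
    torusPt u a j ≠ 0 :=
  Finset.prod_ne_zero_iff.2 fun i _ => pow_ne_zero _ (hu.1 i j)

theorem torusPt_add (u : Fin m → Fin n → K) (a b : Fin m → ℕ) (j : Fin n) :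
    torusPt u (a + b) j = torusPt u b j * torusPt u a j := by
  simp only [torusPt, Pi.add_apply, pow_add, Finset.prod_mul_distrib, mul_comm]

theorem MulIndep.tail {u : Fin m → Fin (n + 1) → K} (hu : MulIndep u) :
    MulIndep fun i (j : Fin n) => u i j.succ := by
  refine ⟨fun i j => hu.1 i j.succ, fun e he => ?_⟩
  have h := hu.2 (fun i j => Fin.cases 0 (e i) j) (by
    rw [← he]
    apply Finset.prod_congr rfl
    intro i _
    rw [Fin.prod_univ_succ]
    simp)
  funext i j
  have := congrFun (congrFun h i) j.succ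
  simpa using this

theorem torusPt_eq_cons (u : Fin m → Fin (n + 1) → K) (a : Fin m → ℕ) :
    torusPt u a = Fin.cons (torusPt u a 0) (torusPt (fun i (j : Fin n) => u i j.succ) a) := by
  funext j
  refine Fin.cases ?_ (fun j => ?_) j
  · simp
  · simp [torusPt]

/-- the value of the monomial `α` at `u ^ b`. -/
theorem prod_torusPt_pow (u : Fin m → Fin n → K) (b : Fin m → ℕ) (α : Fin n →₀ ℕ) :
    (α.prod fun j k => torusPt u b j ^ k) = ∏ i, ∏ j, u i j ^ (b i * α j) := by
  rw [Finsupp.prod_fintype _ _ (by simp)]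
  simp only [torusPt, ← Finset.prod_pow, ← pow_mul]
  rw [Finset.prod_comm]

/-- a polynomial which is semi-invariant under a nontrivial translation has one monomial. -/
theorem support_subsingleton_of_associated {u : Fin m → Fin n → K} (hu : MulIndep u)
    {b b' : Fin m → ℕ} (hbb : b ≠ b') (q : MvPolynomial (Fin n) K)
    (h : Associated (rescale (torusPt u b) q) (rescale (torusPt u b') q)) :
    ∀ α ∈ q.support, ∀ α' ∈ q.support, α = α' := by
  intro α hα α' hα'
  obtain ⟨w, hw⟩ := h
  obtain ⟨c, hc, hwc⟩ := isUnit_iff_eq_C_of_isReduced.1 w.isUnit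
  rw [hwc] at hw
  rw [mem_support_iff] at hα hα'
  have h1 := congrArg (coeff α) hw
  have h2 := congrArg (coeff α') hw
  rw [mul_comm, coeff_C_mul, coeff_rescale, coeff_rescale, prod_torusPt_pow, prod_torusPt_pow]
    at h1 h2
  have h1' : (∏ i, ∏ j, u i j ^ (b i * α j)) * c = ∏ i, ∏ j, u i j ^ (b' i * α j) := by
    apply mul_left_cancel₀ hα; rw [← h1]; ring
  have h2' : (∏ i, ∏ j, u i j ^ (b i * α' j)) * c = ∏ i, ∏ j, u i j ^ (b' i * α' j) := by
    apply mul_left_cancel₀ hα'; rw [← h2]; ring
  have hc0 : c ≠ 0 := hc.ne_zero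
  have h3 : (∏ i, ∏ j, u i j ^ (b i * α j)) * (∏ i, ∏ j, u i j ^ (b' i * α' j)) =
      (∏ i, ∏ j, u i j ^ (b' i * α j)) * (∏ i, ∏ j, u i j ^ (b i * α' j)) := by
    rw [← h1', ← h2']; ring
  have h4 := hu.2 (fun i j => ((b i : ℤ) - b' i) * ((α j : ℤ) - α' j)) (by
    have hne : ∀ (f : Fin m → Fin n → ℕ), (∏ i, ∏ j, u i j ^ f i j) ≠ 0 := fun f =>
      Finset.prod_ne_zero_iff.2 fun i _ => Finset.prod_ne_zero_iff.2 fun j _ =>
        pow_ne_zero _ (hu.1 i j)
    have h5 : ∀ i j, u i j ^ (((b i : ℤ) - b' i) * ((α j : ℤ) - α' j)) =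
        (u i j ^ (b i * α j) * u i j ^ (b' i * α' j)) /
          (u i j ^ (b' i * α j) * u i j ^ (b i * α' j)) := by
      intro i j
      have h0 := hu.1 i j
      rw [← pow_add, ← pow_add, ← zpow_natCast, ← zpow_natCast, ← zpow_sub₀ h0]
      congr 1
      push_cast
      ring
    simp only [h5, Finset.prod_div_distrib, Finset.prod_mul_distrib]
    rw [h3]
    exact div_self (mul_ne_zero (hne _) (hne _)))
  obtain ⟨i, hi⟩ := Function.ne_iff.1 hbb
  ext j
  have h6 := congrFun (congrFun h4 i) j
  simp only [Pi.zero_apply, mul_eq_zero] at h6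
  rcases h6 with h6 | h6
  · exact absurd (by exact_mod_cast sub_eq_zero.1 h6) hi
  · exact_mod_cast sub_eq_zero.1 h6

end torus

section factors
variable {K : Type*} [Field K] {σ : Type*}

theorem one_le_totalDegree_of_irreducible {q : MvPolynomial σ K} (hq : Irreducible q) :
    1 ≤ q.totalDegree := by
  by_contra h
  have h0 : q.totalDegree = 0 := by omega
  rw [totalDegree_eq_zero_iff_eq_C] at h0
  apply hq.not_isUnit
  rw [h0]
  apply IsUnit.map
  rw [isUnit_iff_ne_zero]
  intro hc
  rw [hc, map_zero] at h0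
  exact hq.ne_zero h0

theorem card_le_totalDegree_prod (s : Multiset (MvPolynomial σ K)) (hs : ∀ q ∈ s, Irreducible q) :
    Multiset.card s ≤ s.prod.totalDegree := by
  induction s using Multiset.induction_on with
  | empty => simp
  | cons a t ih =>
    have ha : Irreducible a := hs a (Multiset.mem_cons_self a t)
    have ht : ∀ q ∈ t, Irreducible q := fun q hq => hs q (Multiset.mem_cons_of_mem hq)
    have ht0 : t.prod ≠ 0 := Multiset.prod_ne_zero fun h => (ht 0 h).ne_zero rfl
    rw [Multiset.card_cons, Multiset.prod_cons, totalDegree_mul_of_isDomain ha.ne_zero ht0]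
    have := one_le_totalDegree_of_irreducible ha
    have := ih ht
    omega

theorem totalDegree_eq_of_associated {p q : MvPolynomial σ K} (h : Associated p q) :
    p.totalDegree = q.totalDegree := by
  obtain ⟨w, rfl⟩ := h
  obtain ⟨c, hc, hwc⟩ := isUnit_iff_eq_C_of_isReduced.1 w.isUnit
  by_cases hp : p = 0
  · simp [hp]
  · rw [hwc, totalDegree_mul_of_isDomain hp (by simpa using hc.ne_zero), totalDegree_C, add_zero]

theorem card_factors_le (P : MvPolynomial σ K) (hP : P ≠ 0) :
    Multiset.card (UniqueFactorizationMonoid.factors P) ≤ P.totalDegree := by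
  rw [← totalDegree_eq_of_associated (UniqueFactorizationMonoid.factors_prod hP)]
  exact card_le_totalDegree_prod _ fun q hq => UniqueFactorizationMonoid.irreducible_of_factor q hq

/-- an irreducible polynomial with a single monomial is divisible by a variable. -/
theorem exists_X_dvd_of_irreducible {q : MvPolynomial σ K} (hq : Irreducible q)
    (h : ∀ α ∈ q.support, ∀ α' ∈ q.support, α = α') : ∃ j, X j ∣ q := by
  classical
  obtain ⟨α, hα⟩ : q.support.Nonempty := by
    rw [Finset.nonempty_iff_ne_empty, Ne, support_eq_empty]; exact hq.ne_zero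
  have hsupp : q.support = {α} := by
    ext β
    rw [Finset.mem_singleton]
    exact ⟨fun hβ => h β hβ α hα, fun hβ => hβ ▸ hα⟩
  have hq' : q = monomial α (coeff α q) := by
    conv_lhs => rw [q.as_sum, hsupp, Finset.sum_singleton]
  have hα0 : α ≠ 0 := by
    rintro rfl
    apply hq.not_isUnit
    rw [hq']
    change IsUnit (C (coeff 0 q))
    apply IsUnit.map
    rw [isUnit_iff_ne_zero]
    exact mem_support_iff.1 hα
  obtain ⟨j, hj⟩ : ∃ j, α j ≠ 0 := by
    by_contra hcon
    push Not at hcon
    exact hα0 (Finsupp.ext hcon)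
  exact ⟨j, by rw [hq']; exact X_dvd_monomial.2 (Or.inr hj)⟩

end factors

section main
variable {K : Type*} [Field K] {m n : ℕ}

/-- the grid of exponents. -/
def grid (m S : ℕ) : Finset (Fin m → ℕ) := Fintype.piFinset fun _ => Finset.range (S + 1)

theorem mem_grid {S : ℕ} {a : Fin m → ℕ} : a ∈ grid m S ↔ ∀ i, a i ≤ S := by
  simp [grid, Fintype.mem_piFinset]

theorem card_grid (m S : ℕ) : (grid m S).card = (S + 1) ^ m := by
  simp [grid, Fintype.card_piFinset]

/-- some translate of `P` is relatively prime to `P`. -/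
theorem exists_isRelPrime_translate {u : Fin m → Fin n → K} (hu : MulIndep u)
    (P : MvPolynomial (Fin n) K) (hP : P ≠ 0) (hX : ∀ j, ¬ X j ∣ P) (S : ℕ)
    (hS : P.totalDegree ^ 2 < (S + 1) ^ m) :
    ∃ b ∈ grid m S, IsRelPrime P (rescale (torusPt u b) P) := by
  classical
  by_contra hcon
  push Not at hcon
  set F := UniqueFactorizationMonoid.factors P with hF
  have key : ∀ b, b ∈ grid m S → ∃ p : MvPolynomial (Fin n) K × MvPolynomial (Fin n) K,
      p ∈ F.toFinset ×ˢ F.toFinset ∧ Associated (rescale (torusPt u b) p.2) p.1 := by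
    intro b hb
    have h1 := hcon b hb
    rw [IsRelPrime] at h1
    push Not at h1
    obtain ⟨d, hdP, hdT, hdu⟩ := h1
    obtain ⟨Q, hQ, hQd⟩ := WfDvdMonoid.exists_irreducible_factor hdu (ne_zero_of_dvd_ne_zero hP hdP)
    set T := rescaleEquiv (torusPt u b) (torusPt_ne_zero hu b) with hT
    have hQP : Q ∣ P := hQd.trans hdP
    have hQT : Q ∣ T P := hQd.trans hdT
    have hQ'P : T.symm Q ∣ P := by
      have := map_dvd T.symm hQT
      simpa using this
    have hQ' : Irreducible (T.symm Q) := (MulEquiv.irreducible_iff T.symm).2 hQ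
    obtain ⟨q, hq, hQq⟩ := UniqueFactorizationMonoid.exists_mem_factors_of_dvd hP hQ hQP
    obtain ⟨q', hq', hQq'⟩ := UniqueFactorizationMonoid.exists_mem_factors_of_dvd hP hQ' hQ'P
    refine ⟨(q, q'), ?_, ?_⟩
    · simp only [Finset.mem_product, Multiset.mem_toFinset]
      exact ⟨hq, hq'⟩
    · have h2 : Associated (T (T.symm Q)) (T q') := hQq'.map T
      rw [AlgEquiv.apply_symm_apply] at h2
      exact h2.symm.trans hQq
  choose! f hf using key
  have hcard : (F.toFinset ×ˢ F.toFinset).card < (grid m S).card := by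
    rw [card_grid, Finset.card_product]
    have h1 : F.toFinset.card ≤ P.totalDegree :=
      (Multiset.toFinset_card_le F).trans (card_factors_le P hP)
    calc F.toFinset.card * F.toFinset.card ≤ P.totalDegree * P.totalDegree :=
          Nat.mul_le_mul h1 h1
      _ = P.totalDegree ^ 2 := (sq _).symm
      _ < _ := hS
  obtain ⟨b, hb, b', hb', hne, hbb⟩ := Finset.exists_ne_map_eq_of_card_lt_of_maps_to hcard
    (f := f) (fun b hb => (hf b hb).1)
  have h1 := (hf b hb).2
  have h2 := (hf b' hb').2
  rw [← hbb] at h2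
  have h3 : Associated (rescale (torusPt u b) (f b).2) (rescale (torusPt u b') (f b).2) :=
    h1.trans h2.symm
  have hmem : (f b).2 ∈ F := by
    have := (hf b hb).1
    simp only [Finset.mem_product, Multiset.mem_toFinset] at this
    exact this.2
  have hirr : Irreducible (f b).2 := UniqueFactorizationMonoid.irreducible_of_factor _ hmem
  obtain ⟨j, hj⟩ := exists_X_dvd_of_irreducible hirr
    (support_subsingleton_of_associated hu hne _ h3)
  exact hX j (hj.trans (UniqueFactorizationMonoid.dvd_of_mem_factors hmem))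

/-- **Zero estimate.** -/
theorem zero_estimate (n : ℕ) : ∀ (m : ℕ) (u : Fin m → Fin n → K), MulIndep u → ∀ (δ S : ℕ),
    (2 * δ + 2) ^ (2 ^ n) < (S + 1) ^ m → ∀ P : MvPolynomial (Fin n) K, P ≠ 0 →
    P.totalDegree ≤ δ → ∃ a : Fin m → ℕ, (∀ i, a i ≤ n * S) ∧ eval (torusPt u a) P ≠ 0 := by
  induction n with
  | zero =>
    intro m u _ δ S _ P hP _
    refine ⟨0, by simp, ?_⟩
    rw [eq_C_of_isEmpty P, eval_C]
    intro h
    apply hP
    rw [eq_C_of_isEmpty P, h, map_zero]
  | succ n ih =>
    intro m u hu δ S hS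
    have hS1 : δ ^ 2 < (S + 1) ^ m := by
      refine lt_of_le_of_lt ?_ hS
      calc δ ^ 2 ≤ (2 * δ + 2) ^ 2 := Nat.pow_le_pow_left (by omega) 2
        _ ≤ (2 * δ + 2) ^ (2 ^ (n + 1)) := by
            apply Nat.pow_le_pow_right (by omega)
            calc 2 = 2 ^ 1 := rfl
              _ ≤ 2 ^ (n + 1) := Nat.pow_le_pow_right (by omega) (by omega)
    have hS2 : (2 * (2 * δ ^ 2) + 2) ^ (2 ^ n) < (S + 1) ^ m := by
      refine lt_of_le_of_lt ?_ hS
      calc (2 * (2 * δ ^ 2) + 2) ^ (2 ^ n) ≤ ((2 * δ + 2) ^ 2) ^ (2 ^ n) := by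
            apply Nat.pow_le_pow_left
            have : (2 * δ + 2) ^ 2 = 2 * (2 * δ ^ 2) + 2 + (8 * δ + 2) := by ring
            omega
        _ = (2 * δ + 2) ^ (2 ^ (n + 1)) := by rw [← pow_mul, pow_succ 2 n, mul_comm 2 (2 ^ n)]
    have inner : ∀ d : ℕ, ∀ P : MvPolynomial (Fin (n + 1)) K, P ≠ 0 → P.totalDegree = d → d ≤ δ →
        ∃ a : Fin m → ℕ, (∀ i, a i ≤ (n + 1) * S) ∧ eval (torusPt u a) P ≠ 0 := by
      intro d
      induction d using Nat.strong_induction_on with
      | _ d ihd =>
        intro P hP hd hdδ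
        by_cases hX : ∃ j, X j ∣ P
        · obtain ⟨j, P', rfl⟩ := hX
          have hP' : P' ≠ 0 := right_ne_zero_of_mul hP
          have hdeg : (X j * P').totalDegree = 1 + P'.totalDegree := by
            rw [totalDegree_mul_of_isDomain (X_ne_zero j) hP', totalDegree_X]
          obtain ⟨a, ha, hne⟩ := ihd P'.totalDegree (by omega) P' hP' rfl (by omega)
          refine ⟨a, ha, ?_⟩
          rw [map_mul, eval_X]
          exact mul_ne_zero (torusPt_ne_zero hu a j) hne
        · push Not at hX
          have hS1' : P.totalDegree ^ 2 < (S + 1) ^ m :=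
            lt_of_le_of_lt (Nat.pow_le_pow_left (hd ▸ hdδ) 2) hS1
          obtain ⟨b, hb, hrel⟩ := exists_isRelPrime_translate hu P hP hX S hS1'
          obtain ⟨R₀, hR0, hRd, hR⟩ := exists_elim P (rescale (torusPt u b) P) hrel hP δ
            (hd ▸ hdδ) ((totalDegree_rescale_le _ _).trans (hd ▸ hdδ))
          obtain ⟨a, ha, hne⟩ := ih m _ hu.tail (2 * δ ^ 2) S hS2 R₀ hR0 hRd
          by_contra hcon
          push Not at hcon
          apply hne
          have h1 := hcon a (fun i => (ha i).trans (Nat.mul_le_mul_right S (Nat.le_succ n)))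
          have h2 := hcon (a + b) (fun i => by
            have h3 := ha i
            have h4 := mem_grid.1 hb i
            simp only [Pi.add_apply]
            calc a i + b i ≤ n * S + S := Nat.add_le_add h3 h4
              _ = (n + 1) * S := by ring)
          have h5 : eval (torusPt u a) (rescale (torusPt u b) P) = 0 := by
            rw [eval_rescale, ← h2]
            congr 2
            funext j
            rw [torusPt_add]
          rw [torusPt_eq_cons] at h1 h5
          exact hR _ _ h1 h5
    intro P hP hdeg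
    exact inner P.totalDegree P hP rfl hdeg

end main

end Claimed.Agent.R239.Log
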