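/-
Row 239, package LOG (Lemma 3.1), owner helper139.
Assembly: the logarithm rank theorem `log_rank`.
-/
import Claimed.Agent.R239.LogDet
import Claimed.Agent.R239.LogLiouville
import Claimed.Agent.R239.LogZero
import Claimed.Agent.R239.LogNum

namespace Claimed.Agent.R239.Log

open scoped Nat

/-- a matrix with linearly independent rows has a nonzero maximal minor. -/
theorem exists_minor {K : Type*} [Field K] {A B : Type} [Fintype A] [DecidableEq A] [Fintype B]
    (M : Matrix A B K) (h : LinearIndependent K M.row) :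
    ∃ e : A → B, (M.submatrix id e).det ≠ 0 := by
  classical
  have hrank : M.rank = Fintype.card A := h.rank_matrix
  obtain ⟨κ, a, ha, hspan, hli⟩ := exists_linearIndependent' K M.col
  have : Finite κ := Finite.of_injective a ha
  have : Fintype κ := Fintype.ofFinite κ
  have hcard : Fintype.card κ = Fintype.card A := by
    rw [linearIndependent_iff_card_eq_finrank_span.mp hli, Set.finrank, hspan,
      ← Matrix.rank_eq_finrank_span_cols, hrank]
  let eq : A ≃ κ := Fintype.equivOfCardEq hcard.symm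
  refine ⟨a ∘ eq, ?_⟩
  have hcol : LinearIndependent K (M.submatrix id (a ∘ eq)).col := by
    have := hli.comp eq eq.injective
    exact this
  have := Matrix.linearIndependent_cols_iff_isUnit.1 hcol
  exact ((Matrix.isUnit_iff_isUnit_det _).1 this).ne_zero

/-- the interpolation matrix: rows = monomials of multidegree `≤ D`, columns = grid points. -/
def interpMat {K : Type*} [Field K] {m n : ℕ} (u : Fin m → Fin n → K) (D S : ℕ) :
    Matrix (Fin n → Fin (D + 1)) (Fin m → Fin (S + 1)) K :=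
  Matrix.of fun α a => ∏ i, ∏ j, u i j ^ ((a i : ℕ) * (α j : ℕ))

/-- the zero estimate says that the rows of the interpolation matrix are independent. -/
theorem interpMat_row_linearIndependent {K : Type*} [Field K] {m n : ℕ} {u : Fin m → Fin n → K}
    (hu : MulIndep u) (D S : ℕ) (hS : (2 * (n * D) + 2) ^ (2 ^ n) < (S + 1) ^ m) :
    LinearIndependent K (interpMat u D (n * S)).row := by
  classical
  rw [Fintype.linearIndependent_iff]
  intro g hg
  by_contra hcon
  push Not at hcon
  obtain ⟨α₀, hα₀⟩ := hcon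
  let fs : (Fin n → Fin (D + 1)) → (Fin n →₀ ℕ) := fun α =>
    Finsupp.equivFunOnFinite.symm fun j => (α j : ℕ)
  have hfs : Function.Injective fs := by
    intro α α' h
    funext j
    have := DFunLike.congr_fun h j
    simp only [fs, Finsupp.equivFunOnFinite_symm_apply_apply] at this
    exact Fin.ext this
  set P : MvPolynomial (Fin n) K := ∑ α, MvPolynomial.monomial (fs α) (g α) with hP
  have hcoeff : MvPolynomial.coeff (fs α₀) P = g α₀ := by
    rw [hP, MvPolynomial.coeff_sum]
    simp only [MvPolynomial.coeff_monomial]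
    rw [Finset.sum_eq_single α₀]
    · simp
    · intro α _ hne
      rw [if_neg]
      exact fun h => hne (hfs h)
    · simp
  have hP0 : P ≠ 0 := by
    intro h
    rw [h, MvPolynomial.coeff_zero] at hcoeff
    exact hα₀ hcoeff.symm
  have hdeg : P.totalDegree ≤ n * D := by
    apply MvPolynomial.totalDegree_finsetSum_le
    intro α _
    refine (MvPolynomial.totalDegree_monomial_le _ _).trans ?_
    rw [Finsupp.sum_fintype _ _ (by simp)]
    calc ∑ j, fs α j ≤ ∑ _j : Fin n, D := by
          apply Finset.sum_le_sum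
          intro j _
          simp only [fs, Finsupp.equivFunOnFinite_symm_apply_apply]
          exact Nat.lt_succ_iff.1 (α j).2
      _ = n * D := by simp
  obtain ⟨a, ha, hne⟩ := zero_estimate n m u hu (n * D) S hS P hP0 hdeg
  apply hne
  let a' : Fin m → Fin (n * S + 1) := fun i => ⟨a i, Nat.lt_succ_iff.2 (ha i)⟩
  have h1 := congrFun hg a'
  rw [hP, map_sum]
  rw [Finset.sum_apply] at h1
  have h2 : ∑ c, (g c • (interpMat u D (n * S)).row c) a' = 0 := h1
  rw [← h2]
  apply Finset.sum_congr rfl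
  intro α _
  rw [MvPolynomial.eval_monomial, prod_torusPt_pow]
  simp [interpMat, Matrix.row, fs, a']

section
variable {ℓ : ℕ} [hℓ : Fact ℓ.Prime] {K : Type*} [NormedField K] [NormedAlgebra ℚ_[ℓ] K]
  [IsUltrametricDist K] [CompleteSpace K]

/-- the entries of the interpolation matrix as exponentials of linear forms in `n - 1` variables. -/
theorem entry_eq_exp {m n : ℕ} (y : Fin m → Fin n → K) (hy : ∀ i j, ‖y i j‖ < expRad ℓ)
    (j₀ : Fin n) (d : {j : Fin n // j ≠ j₀} → K)
    (hrel : ∀ i, y i j₀ = ∑ t : {j : Fin n // j ≠ j₀}, d t * y i t)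
    (α : Fin n → ℕ) (a : Fin m → ℕ) :
    ∏ i, ∏ j, NormedSpace.exp (y i j) ^ (a i * α j) =
      NormedSpace.exp (∑ t : {j : Fin n // j ≠ j₀},
        ((α t : K) + (α j₀ : K) * d t) * ∑ i, (a i : K) * y i t) := by
  classical
  have h1 : ∀ i j, ‖((a i * α j : ℕ) : K) * y i j‖ < expRad ℓ := fun i j =>
    (norm_natCast_mul_le _ _).trans_lt (hy i j)
  have h2 : ∀ i, ‖∑ j, ((a i * α j : ℕ) : K) * y i j‖ < expRad ℓ := fun i =>
    norm_sum_lt _ _ (expRad_pos ℓ) fun j _ => h1 i j
  have h3 : ∏ i, ∏ j, NormedSpace.exp (y i j) ^ (a i * α j) =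
      NormedSpace.exp (∑ i, ∑ j, ((a i * α j : ℕ) : K) * y i j) := by
    rw [exp_sum' (ℓ := ℓ) _ _ fun i _ => h2 i]
    apply Finset.prod_congr rfl
    intro i _
    rw [exp_sum' (ℓ := ℓ) _ _ fun j _ => h1 i j]
    apply Finset.prod_congr rfl
    intro j _
    rw [exp_natCast_mul (ℓ := ℓ) _ (hy i j)]
  rw [h3]
  congr 1
  have h4 : ∀ i, ∑ j, ((a i * α j : ℕ) : K) * y i j =
      ∑ t : {j : Fin n // j ≠ j₀}, ((α t : K) + (α j₀ : K) * d t) * ((a i : K) * y i t) := by
    intro i
    rw [Fintype.sum_eq_add_sum_subtype_ne _ j₀, hrel i, Finset.mul_sum, ← Finset.sum_add_distrib]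
    apply Finset.sum_congr rfl
    intro t _
    push_cast
    ring
  simp only [h4]
  rw [Finset.sum_comm]
  apply Finset.sum_congr rfl
  intro t _
  rw [Finset.mul_sum]

/-- **Logarithm rank theorem** (Lemma 3.1 of the paper, in exponential form, with infinitely many
points).  If the numbers `exp (y i j)` are multiplicatively independent algebraic integers, then the
vectors `y i` satisfy no nontrivial linear relation `∑ j, c j * y i j = 0`. -/
theorem log_rank (ℓ : ℕ) [Fact ℓ.Prime] {K : Type*} [NormedField K] [NormedAlgebra ℚ_[ℓ] K]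
    [IsUltrametricDist K] [CompleteSpace K] (n : ℕ) (y : ℕ → Fin n → K)
    (hy : ∀ i j, ‖y i j‖ < expRad ℓ)
    (hint : ∀ i j, IsIntegral ℤ (NormedSpace.exp (y i j)))
    (hind : ∀ m : ℕ, MulIndep (fun (i : Fin m) (j : Fin n) => NormedSpace.exp (y i j)))
    (c : Fin n → K) (hc : ∀ i, ∑ j, c j * y i j = 0) : c = 0 := by
  classical
  by_contra hc0
  obtain ⟨j₁, hj₁⟩ := Function.ne_iff.1 hc0
  obtain ⟨r, rfl⟩ : ∃ r, n = r + 1 := Nat.exists_eq_succ_of_ne_zero (by
    rintro rfl; exact j₁.elim0)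
  obtain ⟨j₀, hj₀⟩ := Finite.exists_max (fun j => ‖c j‖)
  have hcj₀ : c j₀ ≠ 0 := by
    intro h
    have := hj₀ j₁
    rw [h, norm_zero] at this
    exact hj₁ (norm_le_zero_iff.1 this)
  let d : {j : Fin (r + 1) // j ≠ j₀} → K := fun t => - c t / c j₀
  have hd : ∀ t, ‖d t‖ ≤ 1 := by
    intro t
    simp only [d, norm_div, norm_neg]
    exact div_le_one_of_le₀ (hj₀ t) (norm_nonneg _)
  have hrel : ∀ i, y i j₀ = ∑ t : {j : Fin (r + 1) // j ≠ j₀}, d t * y i t := by
    intro i
    have h1 := hc i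
    rw [Fintype.sum_eq_add_sum_subtype_ne _ j₀] at h1
    have h2 : c j₀ * y i j₀ = - ∑ t : {j : Fin (r + 1) // j ≠ j₀}, c t * y i t :=
      eq_neg_of_add_eq_zero_left h1
    have h3 : y i j₀ = (- ∑ t : {j : Fin (r + 1) // j ≠ j₀}, c t * y i t) / c j₀ := by
      rw [← h2]; field_simp
    rw [h3, ← Finset.sum_neg_distrib, Finset.sum_div]
    apply Finset.sum_congr rfl
    intro t _
    simp only [d]
    ring
  have hcard : Fintype.card {j : Fin (r + 1) // j ≠ j₀} = r := by
    simp [Fintype.card_subtype_compl]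
  rcases Nat.eq_zero_or_pos r with hr0 | hr1
  · -- one variable: `y 0 j₀ = 0`, so `exp (y 0 j₀) = 1`
    have hemp : IsEmpty {j : Fin (r + 1) // j ≠ j₀} := Fintype.card_eq_zero_iff.1 (by omega)
    have h0 : y 0 j₀ = 0 := by rw [hrel 0]; simp
    have h1 := (hind 1).2 (fun _ j => if j = j₀ then 1 else 0) (by
      simp only [Finset.univ_unique, Fin.default_eq_zero, Finset.prod_singleton]
      apply Finset.prod_eq_one
      intro j _
      by_cases hj : j = j₀
      · subst hj; simp [h0]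
      · simp [hj])
    have h2 := congrFun (congrFun h1 0) j₀
    simp at h2
  · set m : ℕ := 2 * r * 2 ^ (r + 1) + 1 with hm
    set u : Fin m → Fin (r + 1) → K := fun i j => NormedSpace.exp (y i j) with hu
    -- a uniform radius
    obtain ⟨ρ, hρ0, hρ, hyρ⟩ : ∃ ρ : ℝ, 0 ≤ ρ ∧ ρ < expRad ℓ ∧
        ∀ (i : Fin m) (j : Fin (r + 1)), ‖y i j‖ ≤ ρ := by
      have : Nonempty (Fin m × Fin (r + 1)) := ⟨(⟨0, by omega⟩, 0)⟩
      obtain ⟨p₀, hp₀⟩ := Finite.exists_max (fun p : Fin m × Fin (r + 1) => ‖y p.1 p.2‖)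
      exact ⟨‖y p₀.1 p₀.2‖, norm_nonneg _, hy _ _, fun i j => hp₀ (i, j)⟩
    have hpos := expRad_pos ℓ
    set η : ℝ := ρ / expRad ℓ with hη
    have hη0 : 0 ≤ η := div_nonneg hρ0 hpos.le
    have hη1 : η < 1 := (div_lt_one hpos).2 hρ
    obtain ⟨d₀, H, hH, hlow⟩ := det_lower (ℓ := ℓ) m (r + 1) u fun i j => hint i j
    obtain ⟨V, D, hz, hfin⟩ := exists_params η H hη0 hη1 hH d₀ r hr1
    have hli := interpMat_row_linearIndependent (hind m) D V hz
    obtain ⟨e, he⟩ := exists_minor _ hli
    set Δ : K := ((interpMat u D ((r + 1) * V)).submatrix id e).det with hΔ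
    have hcardA : Fintype.card (Fin (r + 1) → Fin (D + 1)) = (D + 1) ^ (r + 1) := by simp
    -- the arithmetic lower bound
    have hL := hlow (Fin (r + 1) → Fin (D + 1)) ((r + 1) * V * D)
      (fun α a i j => (e a i : ℕ) * (α j : ℕ)) (by
        intro α a i j
        exact Nat.mul_le_mul (Nat.lt_succ_iff.1 (e a i).2) (Nat.lt_succ_iff.1 (α j).2)) he
    -- the analytic upper bound
    have hU := norm_det_exp_le (ℓ := ℓ) (ι := Fin (r + 1) → Fin (D + 1))
      (fun α (t : {j : Fin (r + 1) // j ≠ j₀}) => (((α t : ℕ) : K) + ((α j₀ : ℕ) : K) * d t))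
      (fun a t => ∑ i : Fin m, ((e a i : ℕ) : K) * y i t)
      (by
        intro α t
        refine (IsUltrametricDist.norm_add_le_max _ _).trans (max_le ?_ ?_)
        · exact IsUltrametricDist.norm_natCast_le_one K _
        · exact (norm_natCast_mul_le _ _).trans (hd t))
      ρ hρ0 hρ
      (by
        intro a t
        apply IsUltrametricDist.norm_sum_le_of_forall_le_of_nonneg hρ0
        intro i _
        exact (norm_natCast_mul_le _ _).trans (hyρ i t))
      ((V ^ 2) ^ (r + 1))
    have hmat : (Matrix.of fun (α a : Fin (r + 1) → Fin (D + 1)) =>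
        NormedSpace.exp (∑ t : {j : Fin (r + 1) // j ≠ j₀},
          (((α t : ℕ) : K) + ((α j₀ : ℕ) : K) * d t) * ∑ i : Fin m, ((e a i : ℕ) : K) * y i t)) =
        (interpMat u D ((r + 1) * V)).submatrix id e := by
      ext α a
      simp only [Matrix.of_apply, Matrix.submatrix_apply, id, interpMat]
      exact (entry_eq_exp (ℓ := ℓ) (fun (i : Fin m) j => y i j) (fun i j => hy i j) j₀ d
        (fun i => hrel i) (fun j => (α j : ℕ)) (fun i => (e a i : ℕ))).symm
    rw [hmat, hcard, hcardA] at hU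
    rw [hcardA] at hL
    have hL' : ((((((D + 1) ^ (r + 1))! : ℕ) : ℝ) *
        H ^ ((r + 1) * V * D * (D + 1) ^ (r + 1))) ^ d₀)⁻¹ ≤ ‖Δ‖ := hL
    set X : ℝ := (((((D + 1) ^ (r + 1))! : ℕ) : ℝ) *
        H ^ ((r + 1) * V * D * (D + 1) ^ (r + 1))) ^ d₀ with hX
    have hXpos : 0 < X := by
      have h1 : (0 : ℝ) < ((((D + 1) ^ (r + 1))! : ℕ) : ℝ) := by
        exact_mod_cast Nat.factorial_pos _
      have h2 : (0 : ℝ) < H := by linarith
      positivity
    have h1 : X⁻¹ ≤ η ^ ((V ^ 2) ^ (r + 1) * ((D + 1) ^ (r + 1) - ((V ^ 2) ^ (r + 1)) ^ r)) :=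
      hL'.trans hU
    have h2 : 1 ≤ η ^ ((V ^ 2) ^ (r + 1) * ((D + 1) ^ (r + 1) - ((V ^ 2) ^ (r + 1)) ^ r)) * X := by
      have := mul_le_mul_of_nonneg_right h1 hXpos.le
      rwa [inv_mul_cancel₀ hXpos.ne'] at this
    linarith

end

end Claimed.Agent.R239.Log
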