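/-
Row 239 (S0475).  Package SOLV: consequences of the frozen definition `Claims.C0403.SolvablyClosed`.
Owner: helper205.  Mathlib + `Def_0403` only.  Prefix `solv_`.
-/
import Mathlib
import Claimed.Prelude.Def_0403

set_option autoImplicit false

namespace Claimed.Agent.R239

open Polynomial Claims.C0403

section Radicals

variable {E : Type} [Field E]

set_option backward.isDefEq.respectTransparency false in
/-- the Galois group of `X^n - 1` is commutative. -/
theorem solv_comm_X_pow_sub_one (n : ℕ) (σ τ : (X ^ n - 1 : E[X]).Gal) : σ * τ = τ * σ := by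
  by_cases hn : n = 0
  · subst hn
    have : Subsingleton (X ^ 0 - 1 : E[X]).Gal := by
      rw [pow_zero, sub_self]
      infer_instance
    exact Subsingleton.elim _ _
  have hn' : 0 < n := pos_iff_ne_zero.mpr hn
  have hn'' : (X ^ n - 1 : E[X]) ≠ 0 := X_pow_sub_C_ne_zero hn' 1
  ext a ha
  simp only [mem_rootSet_of_ne hn'', map_sub, aeval_X_pow, aeval_one, sub_eq_zero] at ha
  have key : ∀ σ : (X ^ n - 1 : E[X]).Gal, ∃ m : ℕ, σ a = a ^ m := by
    intro σ
    lift n to ℕ+ using hn'
    exact map_rootsOfUnity_eq_pow_self σ.toAlgHom (rootsOfUnity.mkOfPowEq a ha)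
  obtain ⟨c, hc⟩ := key σ
  obtain ⟨d, hd⟩ := key τ
  rw [σ.mul_apply, τ.mul_apply, hc, map_pow, hd, map_pow, hc, ← pow_mul, pow_mul']

theorem solv_splits_X_pow_sub_one (hE : SolvablyClosed E) (n : ℕ) : (X ^ n - 1 : E[X]).Splits :=
  hE _ (solv_comm_X_pow_sub_one n)

set_option backward.isDefEq.respectTransparency false in
/-- the Galois group of `X^n - a` is commutative if the `n`-th roots of unity are in the base field. -/
theorem solv_comm_X_pow_sub_C (n : ℕ) (a : E) (h : (X ^ n - 1 : E[X]).Splits)
    (σ τ : (X ^ n - C a : E[X]).Gal) : σ * τ = τ * σ := by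
  by_cases ha : a = 0
  · subst ha
    have : Subsingleton (X ^ n - C 0 : E[X]).Gal := by
      rw [C_0, sub_zero]
      infer_instance
    exact Subsingleton.elim _ _
  have ha' : algebraMap E (X ^ n - C a).SplittingField a ≠ 0 :=
    mt ((injective_iff_map_eq_zero _).mp (RingHom.injective _) a) ha
  by_cases hn : n = 0
  · subst hn
    have : Subsingleton (X ^ 0 - C a : E[X]).Gal := by
      rw [pow_zero, ← C_1, ← C_sub]
      infer_instance
    exact Subsingleton.elim _ _
  have hn' : 0 < n := pos_iff_ne_zero.mpr hn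
  have hn'' : X ^ n - C a ≠ 0 := X_pow_sub_C_ne_zero hn' a
  have hn''' : (X ^ n - 1 : E[X]) ≠ 0 := X_pow_sub_C_ne_zero hn' 1
  have mem_range : ∀ {c : (X ^ n - C a).SplittingField},
      (c ^ n = 1 → (∃ d, algebraMap E (X ^ n - C a).SplittingField d = c)) := fun {c} hc =>
    RingHom.mem_range.mp (minpoly.mem_range_of_degree_eq_one E c
      (Splits.degree_eq_one_of_irreducible (h.of_dvd hn'''
        (minpoly.dvd E c (by rwa [map_sub, sub_eq_zero, aeval_X_pow, aeval_one])))
          (minpoly.irreducible ((SplittingField.instNormal (X ^ n - C a)).isIntegral c))))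
  ext b hb
  rw [mem_rootSet_of_ne hn'', map_sub, aeval_X_pow, aeval_C, sub_eq_zero] at hb
  have hb' : b ≠ 0 := by
    intro hb'
    rw [hb', zero_pow hn] at hb
    exact ha' hb.symm
  have key : ∀ σ : (X ^ n - C a).Gal, ∃ c, σ b = b * algebraMap E _ c := by
    intro σ
    have key : (σ b / b) ^ n = 1 := by rw [div_pow, ← map_pow, hb, σ.commutes, div_self ha']
    obtain ⟨c, hc⟩ := mem_range key
    use c
    rw [hc, mul_div_cancel₀ (σ b) hb']
  obtain ⟨c, hc⟩ := key σ
  obtain ⟨d, hd⟩ := key τ
  rw [σ.mul_apply, τ.mul_apply, hc, map_mul, τ.commutes, hd, map_mul, σ.commutes, hc,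
    mul_assoc, mul_assoc, mul_right_inj' hb', mul_comm]

theorem solv_splits_X_pow_sub_C (hE : SolvablyClosed E) (n : ℕ) (a : E) : (X ^ n - C a : E[X]).Splits :=
  hE _ (solv_comm_X_pow_sub_C n a (solv_splits_X_pow_sub_one hE n))

/-- a solvably closed field contains all radicals of its elements. -/
theorem solv_exists_root (hE : SolvablyClosed E) {n : ℕ} (hn : 0 < n) (x : E) : ∃ y : E, y ^ n = x := by
  have hs := solv_splits_X_pow_sub_C hE n x
  have hdeg : (X ^ n - C x : E[X]).degree ≠ 0 := by
    rw [degree_X_pow_sub_C hn]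
    exact_mod_cast hn.ne'
  obtain ⟨y, hy⟩ := hs.exists_eval_eq_zero hdeg
  refine ⟨y, ?_⟩
  simpa [sub_eq_zero] using hy

/-- a solvably closed field of characteristic zero contains all roots of unity. -/
theorem solv_exists_prim (hE : SolvablyClosed E) [CharZero E] {n : ℕ} (hn : 0 < n) :
    ∃ ζ : E, IsPrimitiveRoot ζ n := by
  have : NeZero n := ⟨hn.ne'⟩
  have hs : (cyclotomic n E).Splits :=
    (solv_splits_X_pow_sub_one hE n).of_dvd (X_pow_sub_C_ne_zero hn 1) (cyclotomic.dvd_X_pow_sub_one n E)
  have hdeg : (cyclotomic n E).degree ≠ 0 := by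
    rw [degree_cyclotomic]
    exact_mod_cast (Nat.totient_pos.2 hn).ne'
  obtain ⟨ζ, hζ⟩ := hs.exists_eval_eq_zero hdeg
  exact ⟨ζ, (isRoot_cyclotomic_iff (n := n)).1 hζ⟩

end Radicals

section Abelian

variable {E : Type} [Field E]

/-- base change does not destroy commutativity of the Galois group of a polynomial. -/
theorem solv_comm_gal_map {K : Type*} [Field K] [Algebra K E] (f : K[X])
    (hf : ∀ a b : f.Gal, a * b = b * a) (σ τ : (f.map (algebraMap K E)).Gal) : σ * τ = τ * σ := by
  have hs : Fact ((f.map (algebraMap K (f.map (algebraMap K E)).SplittingField)).Splits) :=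
    ⟨by
      rw [IsScalarTower.algebraMap_eq K E (f.map (algebraMap K E)).SplittingField, ← Polynomial.map_map]
      exact SplittingField.splits _⟩
  let r : (f.map (algebraMap K E)).Gal → f.Gal := fun σ =>
    Gal.restrict f (f.map (algebraMap K E)).SplittingField (AlgEquiv.restrictScalars K σ)
  have key : ∀ (σ : (f.map (algebraMap K E)).Gal) (x : f.rootSet (f.map (algebraMap K E)).SplittingField),
      ((r σ • x : f.rootSet (f.map (algebraMap K E)).SplittingField) :
        (f.map (algebraMap K E)).SplittingField) = σ x := fun σ x =>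
    Gal.restrict_smul (AlgEquiv.restrictScalars K σ) x
  ext a ha
  have ha' : a ∈ f.rootSet (f.map (algebraMap K E)).SplittingField := by
    rw [rootSet, aroots_map] at ha
    exact ha
  have h1 : (σ * τ) a = ((r σ * r τ) • (⟨a, ha'⟩ : f.rootSet _) : f.rootSet _) := by
    rw [mul_smul, key, key]
    rfl
  have h2 : (τ * σ) a = ((r τ * r σ) • (⟨a, ha'⟩ : f.rootSet _) : f.rootSet _) := by
    rw [mul_smul, key, key]
    rfl
  rw [h1, h2, hf]

/-- minimal polynomials of elements of an abelian extension of a subfield split in a solvably closed field. -/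
theorem solv_splits_minpoly (hE : SolvablyClosed E) (K : Type*) [Field K] [Algebra K E]
    {L : Type*} [Field L] [Algebra K L] [IsAbelianGalois K L] (x : L) :
    ((minpoly K x).map (algebraMap K E)).Splits := by
  refine hE _ (solv_comm_gal_map _ ?_)
  have hs : Fact (((minpoly K x).map (algebraMap K L)).Splits) := ⟨Normal.splits inferInstance x⟩
  intro a b
  obtain ⟨a', rfl⟩ := Gal.restrict_surjective (minpoly K x) L a
  obtain ⟨b', rfl⟩ := Gal.restrict_surjective (minpoly K x) L b
  rw [← map_mul, ← map_mul, IsMulCommutative.is_comm.comm a' b']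

/-- **every abelian extension of a subfield of a solvably closed field embeds into it.** -/
theorem solv_exists_embed (hE : SolvablyClosed E) (K : Type*) [Field K] [Algebra K E]
    (L : Type*) [Field L] [Algebra K L] [IsAbelianGalois K L] : Nonempty (L →ₐ[K] E) :=
  IntermediateField.nonempty_algHom_of_adjoin_splits (S := Set.univ)
    (fun s _ => ⟨Algebra.IsIntegral.isIntegral s, solv_splits_minpoly hE K s⟩)
    (IntermediateField.adjoin_univ K L)

/-- a solvably closed field has no nontrivial abelian extension. -/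
theorem solv_no_abelian (hE : SolvablyClosed E) (L : Type*) [Field L] [Algebra E L] [IsAbelianGalois E L] :
    Function.Surjective (algebraMap E L) := by
  obtain ⟨φ⟩ := solv_exists_embed hE E L
  intro y
  refine ⟨φ y, φ.injective ?_⟩
  exact φ.commutes (φ y)

end Abelian

section Closed

variable {E : Type} [Field E] {Ω : Type*} [Field Ω] [Algebra ℚ Ω] [IsGalois ℚ Ω]

/-- an element of `Ω` fixed by all commutators of `G_{ιE}` lies in `ι E` (`E` solvably closed). -/
theorem solv_mem_range_of_comm_fixed (hE : SolvablyClosed E) (ι : E →+* Ω) (y : Ω)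
    (hy : ∀ a b : Gal(Ω/ℚ), (∀ e, a (ι e) = ι e) → (∀ e, b (ι e) = ι e) →
      (a * b * a⁻¹ * b⁻¹) y = y) : ∃ e, ι e = y := by
  let _ : Algebra E Ω := ι.toAlgebra
  have : CharZero Ω := algebraRat.charZero Ω
  have : CharZero E := (RingHom.charZero_iff ι.injective).2 inferInstance
  have : IsScalarTower ℚ E Ω := IsScalarTower.of_algebraMap_eq fun q => by
    rw [eq_ratCast, eq_ratCast, map_ratCast]
  have : IsGalois E Ω := IsGalois.tower_top_of_isGalois ℚ E Ω
  have hfix : ∀ (a : Gal(Ω/E)) (e : E), (a.restrictScalars ℚ) (ι e) = ι e := fun a e => a.commutes e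
  set f := minpoly E y with hf
  have hs : Fact ((f.map (algebraMap E Ω)).Splits) := ⟨Normal.splits inferInstance y⟩
  have hcomm : ∀ a b : f.Gal, a * b = b * a := by
    intro a b
    obtain ⟨a', rfl⟩ := Gal.restrict_surjective f Ω a
    obtain ⟨b', rfl⟩ := Gal.restrict_surjective f Ω b
    rw [← map_mul, ← map_mul]
    apply Gal.galActionHom_injective f Ω
    ext x
    rw [Gal.galActionHom_restrict, Gal.galActionHom_restrict]
    have hx : aeval (x : Ω) (minpoly E y) = 0 := (mem_rootSet.1 x.2).2
    obtain ⟨g, hg⟩ := minpoly.exists_algEquiv_of_root' (Algebra.IsAlgebraic.isAlgebraic y) hx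
    have h := hy ((g⁻¹ * a'⁻¹ * g).restrictScalars ℚ) ((g⁻¹ * b'⁻¹ * g).restrictScalars ℚ)
      (hfix _) (hfix _)
    have h2 : (g⁻¹ * (b' * a')⁻¹ * (a' * b') * g) y = y := by
      have : g⁻¹ * (b' * a')⁻¹ * (a' * b') * g
          = (g⁻¹ * a'⁻¹ * g) * (g⁻¹ * b'⁻¹ * g) * (g⁻¹ * a'⁻¹ * g)⁻¹ * (g⁻¹ * b'⁻¹ * g)⁻¹ := by group
      rw [this]
      exact h
    rw [← hg]
    have h3 : ((b' * a') * g * (g⁻¹ * (b' * a')⁻¹ * (a' * b') * g)) y = ((b' * a') * g) y := by
      rw [AlgEquiv.mul_apply, h2]
    have h4 : (b' * a') * g * (g⁻¹ * (b' * a')⁻¹ * (a' * b') * g) = (a' * b') * g := by group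
    rw [h4] at h3
    exact h3
  have hdeg : f.natDegree = 1 :=
    Splits.natDegree_eq_one_of_irreducible (hE f hcomm)
      (minpoly.irreducible (Algebra.IsIntegral.isIntegral y))
  exact minpoly.natDegree_eq_one_iff.1 hdeg

/-- **`G_{ιE}` has no proper closed subgroup containing its commutators** (`E` solvably closed):
a closed subgroup of `Gal(Ω/ℚ)` containing all commutators of `G_{ιE}` contains `G_{ιE}`. -/
theorem solv_mem_of_closed_comm (hE : SolvablyClosed E) (ι : E →+* Ω) (H : Subgroup Gal(Ω/ℚ))
    (hH : IsClosed (H : Set Gal(Ω/ℚ)))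
    (hc : ∀ a b : Gal(Ω/ℚ), (∀ e, a (ι e) = ι e) → (∀ e, b (ι e) = ι e) → a * b * a⁻¹ * b⁻¹ ∈ H)
    (g : Gal(Ω/ℚ)) (hg : ∀ e, g (ι e) = ι e) : g ∈ H := by
  have h1 := InfiniteGalois.fixingSubgroup_fixedField (⟨H, hH⟩ : ClosedSubgroup Gal(Ω/ℚ))
  change (IntermediateField.fixedField H).fixingSubgroup = H at h1
  rw [← h1, IntermediateField.mem_fixingSubgroup_iff]
  intro y hy
  obtain ⟨e, rfl⟩ := solv_mem_range_of_comm_fixed hE ι y fun a b ha hb =>
    (IntermediateField.mem_fixedField_iff H y).1 hy _ (hc a b ha hb)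
  exact hg e

/-- continuous homomorphisms from a closed subgroup `W ⊇ G_{ιE}` to a commutative topological group send
`G_{ιE}` into every closed subgroup. -/
theorem solv_hom_mem (hE : SolvablyClosed E) (ι : E →+* Ω) (W : Subgroup Gal(Ω/ℚ))
    (hW : IsClosed (W : Set Gal(Ω/ℚ))) (hNW : ∀ g : Gal(Ω/ℚ), (∀ e, g (ι e) = ι e) → g ∈ W)
    {A : Type*} [CommGroup A] [TopologicalSpace A] (χ : W →* A) (hχ : Continuous χ)
    (B : Subgroup A) (hB : IsClosed (B : Set A)) (g : W) (hg : ∀ e, g.1 (ι e) = ι e) : χ g ∈ B := by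
  have h := solv_mem_of_closed_comm hE ι ((B.comap χ).map W.subtype) ?_ ?_ g.1 hg
  · obtain ⟨g', hg', h'⟩ := h
    have : g' = g := Subtype.ext h'
    rw [← this]
    exact hg'
  · rw [Subgroup.coe_map]
    exact hW.isClosedEmbedding_subtypeVal.isClosedMap _ (hB.preimage hχ)
  · intro a b ha hb
    set a' : W := ⟨a, hNW a ha⟩ with ha'
    set b' : W := ⟨b, hNW b hb⟩ with hb'
    refine ⟨a' * b' * a'⁻¹ * b'⁻¹, ?_, ?_⟩
    · rw [SetLike.mem_coe, Subgroup.mem_comap]
      simp only [map_mul, map_inv]
      rw [mul_comm (χ _) (χ _), mul_inv_cancel_right, mul_inv_cancel]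
      exact B.one_mem
    · simp [ha', hb']

/-- a continuous homomorphism from a closed subgroup `W ⊇ G_{ιE}` to a `T1` commutative group kills `G_{ιE}`. -/
theorem solv_hom_eq_one (hE : SolvablyClosed E) (ι : E →+* Ω) (W : Subgroup Gal(Ω/ℚ))
    (hW : IsClosed (W : Set Gal(Ω/ℚ))) (hNW : ∀ g : Gal(Ω/ℚ), (∀ e, g (ι e) = ι e) → g ∈ W)
    {A : Type*} [CommGroup A] [TopologicalSpace A] [T1Space A] (χ : W →* A) (hχ : Continuous χ)
    (g : W) (hg : ∀ e, g.1 (ι e) = ι e) : χ g = 1 := by
  have := solv_hom_mem hE ι W hW hNW χ hχ ⊥ (by simp) g hg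
  simpa using this

/-- **additive form** (e.g. `A = ℚ_[r]`): a continuous additive character of a closed subgroup
`W ⊇ G_{ιE}` of `Gal(Ω/ℚ)` vanishes on `G_{ιE}`. -/
theorem solv_char_eq_zero (hE : SolvablyClosed E) (ι : E →+* Ω) (W : Subgroup Gal(Ω/ℚ))
    (hW : IsClosed (W : Set Gal(Ω/ℚ))) (hNW : ∀ g : Gal(Ω/ℚ), (∀ e, g (ι e) = ι e) → g ∈ W)
    {A : Type*} [AddCommGroup A] [TopologicalSpace A] [T1Space A] (x : W → A) (hx : Continuous x)
    (hadd : ∀ g h, x (g * h) = x g + x h) (g : W) (hg : ∀ e, g.1 (ι e) = ι e) : x g = 0 := by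
  have h0 : x 1 = 0 := by
    have := hadd 1 1
    rw [mul_one] at this
    simpa using this
  let χ : W →* Multiplicative A :=
    { toFun := fun g => Multiplicative.ofAdd (x g)
      map_one' := by rw [h0]; rfl
      map_mul' := fun g h => by rw [hadd]; rfl }
  have : T1Space (Multiplicative A) := inferInstanceAs (T1Space A)
  have := solv_hom_eq_one hE ι W hW hNW χ (continuous_ofAdd.comp hx) g hg
  exact this

end Closed

section Qs

variable {E : Type} [Field E]

theorem solv_splits_comp_X_pow (hE : SolvablyClosed E) (p : E[X]) (hp : p.Splits) (n : ℕ) :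
    (p.comp (X ^ n)).Splits := by
  rw [hp.eq_prod_roots, mul_comp, C_comp, multiset_prod_comp]
  refine Splits.mul (Splits.C _) (Splits.multisetProd ?_)
  intro f hf
  simp only [Multiset.map_map, Multiset.mem_map, Function.comp] at hf
  obtain ⟨a, -, rfl⟩ := hf
  simpa using solv_splits_X_pow_sub_C hE n a

theorem solv_normal_solvableByRad (F : Type*) [Field F] [Algebra F E] (hE : SolvablyClosed E) :
    Normal F (solvableByRad F E) := by
  set Q₀ := solvableByRad F E with hQ₀
  let ι := {K : IntermediateField F E // Normal F K ∧ K ≤ Q₀}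
  let Q₁ : IntermediateField F E := ⨆ K : ι, K.1
  have hN : Normal F Q₁ := IntermediateField.normal_iSup (h := fun K => K.2.1)
  have h10 : Q₁ ≤ Q₀ := iSup_le fun K => K.2.2
  have h01 : Q₀ ≤ Q₁ := by
    refine solvableByRad_le fun x n hn hx => ?_
    set p := minpoly F (x ^ n) with hp
    have hint : IsIntegral F (x ^ n) := isIntegral_of_mem_solvableByRad (h10 hx)
    have hp1 : (p.map (algebraMap F Q₁)).Splits := by
      have := hN.splits ⟨x ^ n, hx⟩
      rwa [IntermediateField.minpoly_eq] at this
    have hpE : (p.map (algebraMap F E)).Splits := by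
      have := hp1.map (algebraMap Q₁ E)
      rwa [Polynomial.map_map, ← IsScalarTower.algebraMap_eq] at this
    set P := p.comp (X ^ n) with hP
    have hP0 : P ≠ 0 := by
      intro h
      have h1 : P.natDegree = p.natDegree * n := by rw [hP, natDegree_comp, natDegree_X_pow]
      rw [h, natDegree_zero] at h1
      have := minpoly.natDegree_pos hint
      have : 0 < p.natDegree * n := Nat.mul_pos this (Nat.pos_of_ne_zero hn)
      omega
    have hPE : (P.map (algebraMap F E)).Splits := by
      rw [hP, map_comp, Polynomial.map_pow, map_X]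
      exact solv_splits_comp_X_pow hE _ hpE n
    let K' := IntermediateField.adjoin F (P.rootSet E)
    have hK'N : Normal F K' :=
      Normal.of_isSplittingField (hFEp := IntermediateField.adjoin_rootSet_isSplittingField hPE)
    have hK'le : K' ≤ Q₀ := by
      rw [IntermediateField.adjoin_le_iff]
      intro β hβ
      have h1 : aeval (β ^ n) p = 0 := by
        have := (mem_rootSet.1 hβ).2
        rwa [hP, aeval_comp, map_pow, aeval_X] at this
      have h2 : β ^ n ∈ p.rootSet E := mem_rootSet.2 ⟨minpoly.ne_zero hint, h1⟩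
      rw [← hp1.image_rootSet Q₁.val] at h2
      obtain ⟨b, -, hb⟩ := h2
      refine solvableByRad.rad_mem hn (h10 ?_)
      rw [← hb]
      exact b.2
    have hle : K' ≤ Q₁ := le_iSup (fun K : ι => K.1) ⟨K', hK'N, hK'le⟩
    apply hle
    apply IntermediateField.subset_adjoin
    refine mem_rootSet.2 ⟨hP0, ?_⟩
    rw [hP, aeval_comp, map_pow, aeval_X]
    exact minpoly.aeval _ _
  have : Q₀ = Q₁ := le_antisymm h01 h10
  rw [this]
  exact hN

universe u


open IntermediateField in
/-- a subfield `K` of a solvably closed field `E` of characteristic zero which is closed under radicals in `E`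
has no non-trivial finite abelian extension. -/
theorem solv_rad_finrank_eq_one [CharZero E] (hE : SolvablyClosed E) (K : Type*) [Field K] [Algebra K E]
    (hrad : ∀ (x : E) (n : ℕ), n ≠ 0 → x ^ n ∈ Set.range (algebraMap K E) →
      x ∈ Set.range (algebraMap K E)) :
    ∀ (d : ℕ) (N : Type u) [Field N] [Algebra K N] [FiniteDimensional K N] [IsAbelianGalois K N],
      Module.finrank K N = d → d = 1 := by
  intro d
  induction d using Nat.strong_induction_on with
  | _ d ih =>
    intro N _ _ _ _ hd
    by_cases htriv : ∀ g : Gal(N/K), g = 1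
    · have : Subsingleton Gal(N/K) := ⟨fun a b => by rw [htriv a, htriv b]⟩
      rw [← hd, ← IsGalois.card_aut_eq_finrank]
      exact Nat.card_unique
    · push Not at htriv
      obtain ⟨g, hg⟩ := htriv
      set M := IntermediateField.fixedField (Subgroup.zpowers g) with hM
      have h1 : Module.finrank M N = Nat.card (Subgroup.zpowers g) :=
        IntermediateField.finrank_fixedField_eq_card _
      have h2 : 1 < Nat.card (Subgroup.zpowers g) := by
        rw [Nat.card_zpowers]
        have h0 : 0 < orderOf g := orderOf_pos g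
        have h1 : orderOf g ≠ 1 := fun h => hg (orderOf_eq_one_iff.1 h)
        omega
      have h3 : Module.finrank K M * Module.finrank M N = Module.finrank K N :=
        Module.finrank_mul_finrank K M N
      have h4 : Module.finrank K M < d := by
        have : 0 < Module.finrank K M := Module.finrank_pos
        rw [← hd, ← h3]
        nlinarith
      have h5 : Module.finrank K M = 1 := ih _ h4 M rfl
      have h6 : M = ⊥ := IntermediateField.finrank_eq_one_iff.1 h5
      have h7 : Subgroup.zpowers g = ⊤ := by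
        have := IntermediateField.fixingSubgroup_fixedField (Subgroup.zpowers g)
        rw [← hM, h6, IntermediateField.fixingSubgroup_bot] at this
        exact this.symm
      have : IsCyclic Gal(N/K) := ⟨g, fun x => by
        have : x ∈ Subgroup.zpowers g := h7 ▸ Subgroup.mem_top x
        exact this⟩
      have hd0 : 0 < Module.finrank K N := Module.finrank_pos
      obtain ⟨ζ, hζ⟩ := solv_exists_prim hE hd0
      obtain ⟨ζ', rfl⟩ := hrad ζ _ hd0.ne' (by rw [hζ.pow_eq_one]; exact ⟨1, map_one _⟩)
      have hζ' : IsPrimitiveRoot ζ' (Module.finrank K N) :=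
        hζ.of_map_of_injective (algebraMap K E).injective
      have hK : (primitiveRoots (Module.finrank K N) K).Nonempty :=
        ⟨ζ', (mem_primitiveRoots hd0).2 hζ'⟩
      obtain ⟨α, ⟨a, ha⟩, hα⟩ := exists_root_adjoin_eq_top_of_isCyclic K N hK
      obtain ⟨φ⟩ := solv_exists_embed hE K N
      obtain ⟨b, hb⟩ := hrad (φ α) _ hd0.ne' ⟨a, by rw [← map_pow, ← ha, φ.commutes]⟩
      have hαb : α = algebraMap K N b := by
        apply φ.injective
        change φ α = φ (algebraMap K N b)
        rw [φ.commutes, hb]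
      have hbot : K⟮α⟯ = ⊥ := by
        rw [IntermediateField.adjoin_simple_eq_bot_iff, hαb]
        exact IntermediateField.algebraMap_mem _ _
      rw [hbot] at hα
      rw [← hd]
      exact IntermediateField.bot_eq_top_iff_finrank_eq_one.1 hα

/-- ... hence `K` is solvably closed. -/
theorem solv_solvablyClosed_of_rad [CharZero E] (hE : SolvablyClosed E) (K : Type) [Field K] [Algebra K E]
    (hrad : ∀ (x : E) (n : ℕ), n ≠ 0 → x ^ n ∈ Set.range (algebraMap K E) →
      x ∈ Set.range (algebraMap K E)) : SolvablyClosed K := by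
  intro f hf
  have : CharZero K := (RingHom.charZero_iff (algebraMap K E).injective).2 inferInstance
  have : IsGalois K f.SplittingField := {}
  have : IsAbelianGalois K f.SplittingField := { is_comm := ⟨hf⟩ }
  have h1 := solv_rad_finrank_eq_one hE K hrad _ f.SplittingField rfl
  refine Splits.of_splits_map (algebraMap K f.SplittingField) (SplittingField.splits f) fun a _ => ?_
  have h2 : (⊥ : Subalgebra K f.SplittingField) = ⊤ := Subalgebra.bot_eq_top_of_finrank_eq_one h1
  have h3 : a ∈ (⊥ : Subalgebra K f.SplittingField) := h2 ▸ Algebra.mem_top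
  exact Algebra.mem_bot.1 h3

/-- **Lemma 2.1**: a solvably closed field of characteristic `0` contains a solvably closed subfield which is
Galois over `ℚ`, namely `solvableByRad ℚ E`. -/
theorem solv_Qs_exists [Algebra ℚ E] (hE : SolvablyClosed E) :
    ∃ Q₀ : IntermediateField ℚ E, IsGalois ℚ Q₀ ∧ SolvablyClosed Q₀ := by
  have : CharZero E := algebraRat.charZero E
  refine ⟨solvableByRad ℚ E, ?_, ?_⟩
  · have hN := solv_normal_solvableByRad ℚ hE
    have h : (DivisionRing.toRatAlgebra : Algebra ℚ (solvableByRad ℚ E))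
        = (solvableByRad ℚ E).algebra' := Subsingleton.elim _ _
    rw [← h] at hN
    exact {}
  · refine solv_solvablyClosed_of_rad hE _ fun x n hn hx => ?_
    obtain ⟨y, hy⟩ := hx
    exact ⟨⟨x, solvableByRad.rad_mem hn (hy ▸ y.2)⟩, rfl⟩

end Qs

end Claimed.Agent.R239
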