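import Mathlib

/-!
# Row 239, package GEN (Section 4): abstract representation-theoretic lemmas

Everything here is pure linear algebra over a field of characteristic zero.

* `genInv ρ J` : vectors fixed by a subgroup `J`.
* `gen_exists_separating` : the last step of Lemma 4.2 (quotient amplification).
* `gen_average_mem` : the averaging argument in the proof of Proposition 4.3.
-/

namespace Claimed.Agent.R239

open Finset Module

variable {k : Type*} [Field k]

/-- The vectors fixed by all elements of the subgroup `J`. -/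
def genInv {G V : Type*} [Group G] [AddCommGroup V] [Module k V]
    (ρ : Representation k G V) (J : Subgroup G) : Submodule k V where
  carrier := {v | ∀ g ∈ J, ρ g v = v}
  zero_mem' := fun g _ => by simp
  add_mem' := fun {a b} ha hb g hg => by
    simp only [Set.mem_ofPred_eq] at ha hb
    simp [ha g hg, hb g hg]
  smul_mem' := fun c v hv g hg => by
    simp only [Set.mem_ofPred_eq] at hv
    simp [hv g hg]

theorem gen_mem_inv {G V : Type*} [Group G] [AddCommGroup V] [Module k V]
    (ρ : Representation k G V) (J : Subgroup G) (v : V) :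
    v ∈ genInv ρ J ↔ ∀ g ∈ J, ρ g v = v := Iff.rfl

theorem gen_inv_anti {G V : Type*} [Group G] [AddCommGroup V] [Module k V]
    (ρ : Representation k G V) {D C : Subgroup G} (h : D ≤ C) :
    genInv ρ C ≤ genInv ρ D := fun _ hv g hg => hv g (h hg)

/-- The (unnormalised) sum over a finite subgroup. -/
noncomputable def genSum {G V : Type*} [Group G] [Finite G] [AddCommGroup V] [Module k V]
    (ρ : Representation k G V) (J : Subgroup G) : V →ₗ[k] V :=
  letI := Fintype.ofFinite J
  ∑ g : J, ρ (g : G)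

theorem gen_sum_apply {G V : Type*} [Group G] [Finite G] [AddCommGroup V] [Module k V]
    (ρ : Representation k G V) (J : Subgroup G) [Fintype J] (v : V) :
    genSum ρ J v = ∑ g : J, ρ (g : G) v := by
  unfold genSum
  rw [LinearMap.sum_apply]
  congr!

theorem gen_sum_mem_inv {G V : Type*} [Group G] [Finite G] [AddCommGroup V] [Module k V]
    (ρ : Representation k G V) (J : Subgroup G) (v : V) :
    genSum ρ J v ∈ genInv ρ J := by
  classical
  let _ := Fintype.ofFinite J
  intro g hg
  rw [gen_sum_apply, map_sum]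
  refine Fintype.sum_equiv (Equiv.mulLeft (⟨g, hg⟩ : J)) _ _ ?_
  intro x
  simp [map_mul]

theorem gen_sum_of_mem_inv {G V : Type*} [Group G] [Finite G] [AddCommGroup V] [Module k V]
    (ρ : Representation k G V) (J : Subgroup G) {v : V} (hv : v ∈ genInv ρ J) :
    genSum ρ J v = (Nat.card J : k) • v := by
  classical
  let _ := Fintype.ofFinite J
  rw [gen_sum_apply]
  rw [Finset.sum_congr rfl (fun (g : J) _ => hv g g.2)]
  simp [Nat.card_eq_fintype_card, Nat.cast_smul_eq_nsmul]

/-- `dim (X^D ∩ ker Σ_C) + dim X^C = dim X^D` for `D ≤ C`. -/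
theorem gen_finrank_ker_add [CharZero k] {G V : Type*} [Group G] [Finite G] [AddCommGroup V]
    [Module k V] [FiniteDimensional k V]
    (ρ : Representation k G V) {D C : Subgroup G} (h : D ≤ C) :
    finrank k (genInv ρ D ⊓ LinearMap.ker (genSum ρ C) : Submodule k V) + finrank k (genInv ρ C)
      = finrank k (genInv ρ D) := by
  classical
  -- the restriction of the sum operator to `X^D`
  let f : genInv ρ D →ₗ[k] V := (genSum ρ C).comp (genInv ρ D).subtype
  have hrange : LinearMap.range f = genInv ρ C := by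
    apply le_antisymm
    · rintro _ ⟨v, rfl⟩
      exact gen_sum_mem_inv ρ C _
    · intro v hv
      have hc : (Nat.card C : k) ≠ 0 := by
        exact_mod_cast (Nat.card_pos (α := C)).ne'
      refine ⟨⟨(Nat.card C : k)⁻¹ • v, (genInv ρ D).smul_mem _ (gen_inv_anti ρ h hv)⟩, ?_⟩
      simp only [f, LinearMap.comp_apply, Submodule.subtype_apply, map_smul]
      rw [gen_sum_of_mem_inv ρ C hv, smul_smul, inv_mul_cancel₀ hc, one_smul]
  have hker : finrank k (LinearMap.ker f)
      = finrank k (genInv ρ D ⊓ LinearMap.ker (genSum ρ C) : Submodule k V) := by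
    have : (LinearMap.ker f).map (genInv ρ D).subtype
        = genInv ρ D ⊓ LinearMap.ker (genSum ρ C) := by
      ext v
      constructor
      · rintro ⟨w, hw, rfl⟩
        exact ⟨w.2, hw⟩
      · rintro ⟨h1, h2⟩
        exact ⟨⟨v, h1⟩, h2, rfl⟩
    rw [← this]
    exact (LinearEquiv.finrank_eq
      (Submodule.equivMapOfInjective _ (Submodule.injective_subtype _) _))
  have := LinearMap.finrank_range_add_finrank_ker f
  rw [hrange, hker] at this
  omega

theorem gen_finrank_biSup_le {V ι : Type*} [AddCommGroup V] [Module k V] [FiniteDimensional k V]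
    (s : Finset ι) (F : ι → Submodule k V) :
    finrank k (⨆ i ∈ s, F i : Submodule k V) ≤ ∑ i ∈ s, finrank k (F i) := by
  classical
  induction s using Finset.induction_on with
  | empty => simp
  | insert a s ha ih =>
    rw [Finset.iSup_insert, Finset.sum_insert ha]
    exact (Submodule.finrank_add_le_finrank_add_finrank _ _).trans (by omega)

/-- Last step of Lemma 4.2: a dimension count produces a separating vector. -/
theorem gen_exists_separating [CharZero k] {G V ι : Type*} [Group G] [Finite G] [AddCommGroup V]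
    [Module k V] [FiniteDimensional k V] [Fintype ι]
    (ρ : Representation k G V) {D C : Subgroup G} (h : D ≤ C) (Hs : ι → Subgroup G)
    (hdim : ∑ i, finrank k (genInv ρ (Hs i)) + finrank k (genInv ρ C) < finrank k (genInv ρ D)) :
    ∃ x : V, x ∈ genInv ρ D ∧ genSum ρ C x = 0 ∧ x ∉ ⨆ i, genInv ρ (Hs i) := by
  classical
  by_contra hcon
  push Not at hcon
  have hle : (genInv ρ D ⊓ LinearMap.ker (genSum ρ C) : Submodule k V) ≤ ⨆ i, genInv ρ (Hs i) :=
    fun x hx => hcon x hx.1 hx.2
  have h1 := Submodule.finrank_mono hle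
  have h2 : finrank k (⨆ i, genInv ρ (Hs i) : Submodule k V)
      ≤ ∑ i, finrank k (genInv ρ (Hs i)) := by
    have : (⨆ i, genInv ρ (Hs i) : Submodule k V) = ⨆ i ∈ (Finset.univ : Finset ι), genInv ρ (Hs i) := by
      simp
    rw [this]
    exact gen_finrank_biSup_le _ _
  have h3 := gen_finrank_ker_add ρ h
  omega

/-- For a representation `ρX` of the subgroup `H` of `Q`: the vectors fixed by all elements of
`t N t⁻¹` (which lie in `H`). -/
def genFixConj {Q X : Type*} [Group Q] [AddCommGroup X] [Module k X] (H : Subgroup Q)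
    (ρX : Representation k H X) (N : Subgroup Q) (t : Q) : Submodule k X where
  carrier := {x | ∀ n ∈ N, ∀ h : t * n * t⁻¹ ∈ H, ρX ⟨_, h⟩ x = x}
  zero_mem' := fun n _ h => by simp
  add_mem' := fun {a b} ha hb n hn h => by
    simp only [Set.mem_ofPred_eq] at ha hb
    simp [ha n hn h, hb n hn h]
  smul_mem' := fun c v hv n hn h => by
    simp only [Set.mem_ofPred_eq] at hv
    simp [hv n hn h]

/-- The averaging argument in the proof of Proposition 4.3, in abstract form.
`Q = Gal(F'/ℚ)`, `H = T/U'`, `U = U/U'`, `N` the image of `N`, `Y = X_ℓ(F')`, `X = X_ℓ(L)` with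
`H` acting through `β`, `j` the pull-back along `β`. -/
theorem gen_average_mem [CharZero k] {Q X Y : Type*} [Group Q] [Finite Q]
    [AddCommGroup X] [Module k X] [AddCommGroup Y] [Module k Y]
    (ρY : Representation k Q Y) (H U N : Subgroup Q) (hUH : U ≤ H)
    (ρX : Representation k H X)
    (j : X →ₗ[k] Y) (hj : Function.Injective j)
    (hequiv : ∀ (h : H) (x : X), ρY (h : Q) (j x) = j (ρX h x))
    (hNU : ∀ t : Q, ∀ n ∈ N, t * n * t⁻¹ ∈ U)
    (hNtriv : ∀ n ∈ N, ∀ (h : n ∈ H) (x : X), ρX ⟨n, h⟩ x = x)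
    (δ : Q) (x : X)
    (hx : ∀ (i : ℕ) (h : δ ^ i ∈ H), ρX ⟨δ ^ i, h⟩ x = x)
    (hsum : ∑ i ∈ range (orderOf δ), ρY (δ ^ i) (j x) = 0) :
    x ∈ ⨆ t : {t : Q // t ∉ H}, genFixConj H ρX N (t : Q) := by
  classical
  let _ := Fintype.ofFinite U
  obtain ⟨r, hr⟩ := LinearMap.exists_leftInverse_of_injective j (LinearMap.ker_eq_bot.2 hj)
  have hr' : ∀ z, r (j z) = z := fun z => by
    have := congrArg (fun f => f z) hr
    simpa using this
  -- the `U`-equivariant retraction
  let inc : U → H := fun u => ⟨u, hUH u.2⟩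
  let π0 : Y →ₗ[k] X := ∑ u : U, (ρX (inc u)⁻¹).comp (r.comp (ρY (u : Q)))
  have hπ0 : ∀ y, π0 y = ∑ u : U, ρX (inc u)⁻¹ (r (ρY (u : Q) y)) := fun y => by
    simp [π0, LinearMap.sum_apply]
  have hcU : (Fintype.card U : k) ≠ 0 := by
    exact_mod_cast Fintype.card_ne_zero
  have hπj : ∀ z, π0 (j z) = (Fintype.card U : k) • z := by
    intro z
    rw [hπ0]
    have : ∀ u : U, ρX (inc u)⁻¹ (r (ρY (u : Q) (j z))) = z := by
      intro u
      have h1 : ρY (u : Q) (j z) = j (ρX (inc u) z) := hequiv (inc u) z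
      rw [h1, hr', ← Module.End.mul_apply, ← map_mul]
      simp
    rw [Finset.sum_congr rfl (fun u _ => this u)]
    simp [Nat.cast_smul_eq_nsmul]
  have hπeq : ∀ (u0 : U) (y : Y), π0 (ρY (u0 : Q) y) = ρX (inc u0) (π0 y) := by
    intro u0 y
    rw [hπ0, hπ0, map_sum]
    refine Fintype.sum_equiv (Equiv.mulRight u0) _ _ ?_
    intro u
    have h1 : ρY (u : Q) (ρY (u0 : Q) y) = ρY (((u * u0 : U)) : Q) y := by
      rw [← Module.End.mul_apply, ← map_mul]; rfl
    have h2 : (inc u)⁻¹ = inc u0 * (inc (u * u0))⁻¹ := by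
      apply Subtype.ext
      simp [inc]
    rw [h1, h2, map_mul, Module.End.mul_apply]
    rfl
  -- the translates outside `H`
  have hN1 : ∀ n ∈ N, n ∈ U := fun n hn => by simpa using hNU 1 n hn
  have hfix : ∀ i : ℕ, π0 (ρY (δ ^ i) (j x)) ∈ genFixConj H ρX N (δ ^ i) := by
    intro i n hn h
    have hu : δ ^ i * n * (δ ^ i)⁻¹ ∈ U := hNU _ n hn
    have h1 : ρX ⟨_, h⟩ (π0 (ρY (δ ^ i) (j x)))
        = π0 (ρY (δ ^ i * n * (δ ^ i)⁻¹) (ρY (δ ^ i) (j x))) := (hπeq ⟨_, hu⟩ _).symm
    rw [h1]
    congr 1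
    rw [← Module.End.mul_apply, ← map_mul]
    have h2 : δ ^ i * n * (δ ^ i)⁻¹ * δ ^ i = δ ^ i * n := by group
    rw [h2, map_mul, Module.End.mul_apply]
    congr 1
    have h3 := hequiv ⟨n, hUH (hN1 n hn)⟩ x
    rw [hNtriv n hn] at h3
    exact h3
  set S : Submodule k X := ⨆ t : {t : Q // t ∉ H}, genFixConj H ρX N (t : Q) with hS
  have hsplit := congrArg π0 hsum
  rw [map_sum, map_zero, ← Finset.sum_filter_add_sum_filter_not _ (fun i => δ ^ i ∈ H)] at hsplit
  have hin : ∀ i ∈ (range (orderOf δ)).filter (fun i => δ ^ i ∈ H),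
      π0 (ρY (δ ^ i) (j x)) = (Fintype.card U : k) • x := by
    intro i hi
    have hi' := (Finset.mem_filter.1 hi).2
    have := hequiv ⟨δ ^ i, hi'⟩ x
    rw [hx i hi'] at this
    simp only at this
    rw [this, hπj]
  rw [Finset.sum_congr rfl hin, Finset.sum_const] at hsplit
  set c := ((range (orderOf δ)).filter (fun i => δ ^ i ∈ H)).card with hc
  have hcpos : 0 < c := by
    apply Finset.card_pos.2
    refine ⟨0, Finset.mem_filter.2 ⟨Finset.mem_range.2 (orderOf_pos δ), by simp⟩⟩
  have hout : ∑ i ∈ (range (orderOf δ)).filter (fun i => ¬ δ ^ i ∈ H), π0 (ρY (δ ^ i) (j x)) ∈ S := by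
    apply Submodule.sum_mem
    intro i hi
    have hi' := (Finset.mem_filter.1 hi).2
    exact Submodule.mem_iSup_of_mem (⟨δ ^ i, hi'⟩ : {t : Q // t ∉ H}) (hfix i)
  have hmem : c • ((Fintype.card U : k) • x) ∈ S := by
    have : c • ((Fintype.card U : k) • x)
        = - ∑ i ∈ (range (orderOf δ)).filter (fun i => ¬ δ ^ i ∈ H), π0 (ρY (δ ^ i) (j x)) :=
      eq_neg_of_add_eq_zero_left hsplit
    rw [this]
    exact S.neg_mem hout
  have hck : (c : k) ≠ 0 := by exact_mod_cast hcpos.ne'
  rw [← Nat.cast_smul_eq_nsmul k, smul_smul] at hmem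
  have := S.smul_mem ((c : k) * (Fintype.card U : k))⁻¹ hmem
  rwa [smul_smul, inv_mul_cancel₀ (mul_ne_zero hck hcU), one_smul] at this

end Claimed.Agent.R239
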